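import Mathlib

namespace Vale.Agent.P209

open MeasureTheory Set Function

/-- Differentiation under an interval integral, smooth integrand. -/
theorem hasFDerivAt_param {E : Type} [NormedAddCommGroup E] [NormedSpace ℝ E]
    [FiniteDimensional ℝ E] {G : Type} [NormedAddCommGroup G] [NormedSpace ℝ G]
    [CompleteSpace G] {F : E × ℝ → G} (hF : ContDiff ℝ 1 F) {a b : ℝ} (x : E) :
    HasFDerivAt (fun y => ∫ t in a..b, F (y, t))
      (∫ t in a..b, (fderiv ℝ F (x, t)).comp (ContinuousLinearMap.inl ℝ E ℝ)) x := by
  have hd : Differentiable ℝ F := hF.differentiable (by norm_num)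
  have hc : Continuous (fun p : E × ℝ =>
      (fderiv ℝ F p).comp (ContinuousLinearMap.inl ℝ E ℝ)) :=
    (hF.continuous_fderiv (by norm_num)).clm_comp continuous_const
  obtain ⟨C, hC⟩ := ((isCompact_closedBall x 1).prod
      (isCompact_uIcc (a := a) (b := b))).exists_bound_of_continuousOn hc.continuousOn
  refine intervalIntegral.hasFDerivAt_integral_of_dominated_of_fderiv_le
    (F := fun y t => F (y, t))
    (F' := fun y t => (fderiv ℝ F (y, t)).comp (ContinuousLinearMap.inl ℝ E ℝ))
    (bound := fun _ => C) (Metric.closedBall_mem_nhds x one_pos) ?_ ?_ ?_ ?_ ?_ ?_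
  · exact Filter.Eventually.of_forall fun y =>
      (hF.continuous.comp (continuous_const.prodMk continuous_id)).aestronglyMeasurable
  · exact (hF.continuous.comp (continuous_const.prodMk continuous_id)).intervalIntegrable _ _
  · exact (hc.comp (continuous_const.prodMk continuous_id)).aestronglyMeasurable
  · exact Filter.Eventually.of_forall fun t ht y hy => hC (y, t) ⟨hy, uIoc_subset_uIcc ht⟩
  · exact intervalIntegrable_const
  · exact Filter.Eventually.of_forall fun t _ y _ =>
      ((hd (y, t)).hasFDerivAt.comp y (hasFDerivAt_prodMk_left y t))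

theorem contDiff_param_nat {E : Type} [NormedAddCommGroup E] [NormedSpace ℝ E]
    [FiniteDimensional ℝ E] (a b : ℝ) (n : ℕ) :
    ∀ {G : Type} [NormedAddCommGroup G] [NormedSpace ℝ G] [CompleteSpace G]
      {F : E × ℝ → G}, ContDiff ℝ (⊤ : ℕ∞) F →
      ContDiff ℝ n (fun y => ∫ t in a..b, F (y, t)) := by
  induction n with
  | zero =>
      intro G _ _ _ F hF
      exact contDiff_zero.2 (continuous_iff_continuousAt.2 fun x =>
        (hasFDerivAt_param (hF.of_le (by simp)) x).continuousAt)
  | succ n ih =>
      intro G _ _ _ F hF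
      rw [Nat.cast_succ, contDiff_succ_iff_fderiv]
      refine ⟨fun x => (hasFDerivAt_param (hF.of_le (by simp)) x).differentiableAt,
        by simp, ?_⟩
      have h : (fderiv ℝ fun y => ∫ t in a..b, F (y, t)) =
          fun x => ∫ t in a..b, (fderiv ℝ F (x, t)).comp (ContinuousLinearMap.inl ℝ E ℝ) :=
        funext fun x => (hasFDerivAt_param (hF.of_le (by simp)) x).fderiv
      rw [h]
      exact ih ((hF.fderiv_right (m := ((⊤ : ℕ∞) : WithTop ℕ∞)) (by simp)).clm_comp
        contDiff_const)

/-- A parametric interval integral of a smooth function is smooth. -/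
theorem contDiff_param {E : Type} [NormedAddCommGroup E] [NormedSpace ℝ E]
    [FiniteDimensional ℝ E] {G : Type} [NormedAddCommGroup G] [NormedSpace ℝ G]
    [CompleteSpace G] {F : E × ℝ → G} (hF : ContDiff ℝ (⊤ : ℕ∞) F) (a b : ℝ) :
    ContDiff ℝ (⊤ : ℕ∞) (fun y => ∫ t in a..b, F (y, t)) :=
  contDiff_infty.2 fun n => contDiff_param_nat a b n hF

end Vale.Agent.P209
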