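import Mathlib
import Vale.Agent.P209.Param

namespace Vale.Agent.P209

open MeasureTheory Set Function Complex
open scoped Real ComplexConjugate

/-- The standard area form on the complex line. -/
def area (v w : ℂ) : ℝ := v.re * w.im - v.im * w.re

/-- The Jacobian of a real-linear map of the complex line. -/
noncomputable def jac (A : ℂ →L[ℝ] ℂ) : ℝ := area (A 1) (A I)

theorem clm_apply_complex (A : ℂ →L[ℝ] ℂ) (v : ℂ) : A v = v.re • A 1 + v.im • A I := by
  have h : v = v.re • (1 : ℂ) + v.im • I := by apply Complex.ext <;> simp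
  conv_lhs => rw [h]
  rw [map_add, map_smul, map_smul]

theorem area_map (A : ℂ →L[ℝ] ℂ) (v w : ℂ) : area (A v) (A w) = jac A * area v w := by
  rw [clm_apply_complex A v, clm_apply_complex A w, jac]
  simp only [area, add_re, add_im, real_smul, mul_re, mul_im, ofReal_re, ofReal_im]
  ring

theorem det_eq_jac (A : ℂ →L[ℝ] ℂ) : A.det = jac A := by
  rw [ContinuousLinearMap.det, ← LinearMap.det_toMatrix Complex.basisOneI, Matrix.det_fin_two]
  simp [LinearMap.toMatrix_apply, jac, area]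
  ring

/-- Two parameters of the target chart. -/
structure Chart where
  eps : ℝ
  steep : ℝ
  eps_pos : 0 < eps
  steep_pos : 0 < steep

namespace Chart

variable (c : Chart)

noncomputable def F (x : ℝ) : ℝ := c.eps * Real.log (1 + Real.exp (x / c.eps))

noncomputable def G (y : ℝ) : ℝ := Real.sigmoid (c.steep * y)

noncomputable def F' (x : ℝ) : ℝ := Real.sigmoid (x / c.eps)

noncomputable def G' (y : ℝ) : ℝ :=
  c.steep * (Real.sigmoid (c.steep * y) * (1 - Real.sigmoid (c.steep * y)))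

noncomputable def M (u : ℂ) : ℂ := (c.F u.re : ℂ) + (c.G u.im : ℂ) * I

noncomputable def rho (u : ℂ) : ℝ := c.F' u.re * c.G' u.im

theorem hasDerivAt_F (x : ℝ) : HasDerivAt c.F (c.F' x) x := by
  have hp : 0 < 1 + Real.exp (x / c.eps) := by positivity
  have h := ((((hasDerivAt_id x).div_const c.eps).exp.const_add 1).log hp.ne').const_mul c.eps
  refine h.congr_deriv ?_
  simp only [F', Real.sigmoid_def, Real.exp_neg, id_eq]
  have := c.eps_pos.ne'
  have := (Real.exp_pos (x / c.eps)).ne'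
  field_simp
  ring

theorem hasDerivAt_G (y : ℝ) : HasDerivAt c.G (c.G' y) y := by
  refine ((Real.hasDerivAt_sigmoid _).comp y ((hasDerivAt_id y).const_mul c.steep)).congr_deriv ?_
  simp only [G', id_eq]
  ring

theorem rho_pos (u : ℂ) : 0 < c.rho u :=
  mul_pos (Real.sigmoid_pos _) (mul_pos c.steep_pos (mul_pos (Real.sigmoid_pos _)
    (sub_pos.2 (Real.sigmoid_lt_one _))))

theorem F_pos (x : ℝ) : 0 < c.F x :=
  mul_pos c.eps_pos (Real.log_pos (by linarith [Real.exp_pos (x / c.eps)]))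

theorem G_mem (y : ℝ) : c.G y ∈ Ioo (0 : ℝ) 1 :=
  ⟨Real.sigmoid_pos _, Real.sigmoid_lt_one _⟩

theorem F_strictMono : StrictMono c.F :=
  strictMono_of_hasDerivAt_pos c.hasDerivAt_F fun _ => Real.sigmoid_pos _

theorem G_strictMono : StrictMono c.G := fun _ _ h =>
  Real.sigmoid_lt (mul_lt_mul_of_pos_left h c.steep_pos)

theorem F_ge (x : ℝ) : x ≤ c.F x := by
  have h1 : Real.log (Real.exp (x / c.eps)) ≤ Real.log (1 + Real.exp (x / c.eps)) :=
    Real.log_le_log (Real.exp_pos _) (by linarith)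
  rw [Real.log_exp, div_le_iff₀' c.eps_pos] at h1
  exact h1

theorem F_le_of_nonpos {x : ℝ} (hx : x ≤ 0) : c.F x ≤ c.eps := by
  have he : Real.exp (x / c.eps) ≤ 1 :=
    Real.exp_le_one_iff.2 (div_nonpos_of_nonpos_of_nonneg hx c.eps_pos.le)
  have h := Real.log_le_sub_one_of_pos (show 0 < 1 + Real.exp (x / c.eps) by positivity)
  calc c.F x ≤ c.eps * 1 := mul_le_mul_of_nonneg_left (by linarith) c.eps_pos.le
    _ = c.eps := mul_one _

theorem F_le_of_nonneg {x : ℝ} (hx : 0 ≤ x) : c.F x ≤ x + c.eps := by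
  have he : 1 ≤ Real.exp (x / c.eps) := Real.one_le_exp (div_nonneg hx c.eps_pos.le)
  have h2 : Real.log 2 ≤ 1 := by
    linarith [Real.log_le_sub_one_of_pos (show (0 : ℝ) < 2 by norm_num)]
  have h1 : Real.log (1 + Real.exp (x / c.eps)) ≤ x / c.eps + 1 := by
    calc Real.log (1 + Real.exp (x / c.eps))
        ≤ Real.log (2 * Real.exp (x / c.eps)) := Real.log_le_log (by positivity) (by linarith)
      _ = Real.log 2 + x / c.eps := by
          rw [Real.log_mul two_ne_zero (Real.exp_ne_zero _), Real.log_exp]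
      _ ≤ x / c.eps + 1 := by linarith
  calc c.F x ≤ c.eps * (x / c.eps + 1) := mul_le_mul_of_nonneg_left h1 c.eps_pos.le
    _ = x + c.eps := by rw [mul_add, mul_div_cancel₀ _ c.eps_pos.ne', mul_one]

theorem contDiff_F : ContDiff ℝ (⊤ : ℕ∞) c.F :=
  contDiff_const.mul ((contDiff_const.add
    (Real.contDiff_exp.comp (contDiff_id.div_const _))).log fun x =>
      (add_pos one_pos (Real.exp_pos _)).ne')

theorem contDiff_G : ContDiff ℝ (⊤ : ℕ∞) c.G :=
  (contDiff_sigmoid.of_le le_top).comp (contDiff_const.mul contDiff_id)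

theorem contDiff_M : ContDiff ℝ (⊤ : ℕ∞) c.M :=
  (ofRealCLM.contDiff.comp (c.contDiff_F.comp reCLM.contDiff)).add
    ((ofRealCLM.contDiff.comp (c.contDiff_G.comp imCLM.contDiff)).mul contDiff_const)

theorem contDiff_rho : ContDiff ℝ (⊤ : ℕ∞) c.rho := by
  have hs : ContDiff ℝ (⊤ : ℕ∞) Real.sigmoid := contDiff_sigmoid.of_le le_top
  have hr : ContDiff ℝ (⊤ : ℕ∞) (fun u : ℂ => u.re) := reCLM.contDiff
  have hi : ContDiff ℝ (⊤ : ℕ∞) (fun u : ℂ => u.im) := imCLM.contDiff
  exact (hs.comp (hr.div_const c.eps)).mul (contDiff_const.mul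
    ((hs.comp (contDiff_const.mul hi)).mul (contDiff_const.sub (hs.comp (contDiff_const.mul hi)))))

noncomputable def M' (u : ℂ) : ℂ →L[ℝ] ℂ :=
  ofRealCLM.comp ((c.F' u.re) • reCLM) + I • ofRealCLM.comp ((c.G' u.im) • imCLM)

theorem hasFDerivAt_M (u : ℂ) : HasFDerivAt c.M (c.M' u) u := by
  have h1 : HasFDerivAt (fun z : ℂ => (c.F z.re : ℂ))
      (ofRealCLM.comp ((c.F' u.re) • reCLM)) u :=
    ofRealCLM.hasFDerivAt.comp u ((c.hasDerivAt_F u.re).comp_hasFDerivAt u reCLM.hasFDerivAt)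
  have h2 : HasFDerivAt (fun z : ℂ => (c.G z.im : ℂ))
      (ofRealCLM.comp ((c.G' u.im) • imCLM)) u :=
    ofRealCLM.hasFDerivAt.comp u ((c.hasDerivAt_G u.im).comp_hasFDerivAt u imCLM.hasFDerivAt)
  exact h1.add (h2.mul_const I)

theorem jac_M' (u : ℂ) : jac (c.M' u) = c.rho u := by
  simp [jac, area, M', rho]

theorem M_injective : Injective c.M := by
  intro u v h
  simp only [M, Complex.ext_iff, add_re, add_im, mul_re, mul_im, ofReal_re, ofReal_im, I_re,
    I_im] at h
  exact Complex.ext (c.F_strictMono.injective (by simpa using h.1))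
    (c.G_strictMono.injective (by simpa using h.2))

end Chart

end Vale.Agent.P209
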