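import Mathlib
import Vale.Agent.P209.DiscDefs

namespace Vale.Agent.P209

open MeasureTheory Set Function Complex
open scoped Real ComplexConjugate

/-- A smooth positive density on the complex line. -/
structure Density where
  rho : ℂ → ℝ
  smooth : ContDiff ℝ (⊤ : ℕ∞) rho
  pos : ∀ u, 0 < rho u

namespace Density

variable (d : Density)

noncomputable def circ (t : ℝ) : ℂ := exp ((t : ℂ) * I)

theorem contDiff_circ : ContDiff ℝ (⊤ : ℕ∞) circ :=
  (ofRealCLM.contDiff.mul contDiff_const).cexp

theorem circ_add (s t : ℝ) : circ (s + t) = circ s * circ t := by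
  simp [circ, add_mul, Complex.exp_add]

theorem circ_periodic : Periodic circ (2 * π) := fun t => by
  simp [circ, add_mul, Complex.exp_add]

theorem norm_circ (t : ℝ) : ‖circ t‖ = 1 := by simp [circ]

theorem circ_zero : circ 0 = 1 := by simp [circ]

/-- The circle sum of the density. -/
noncomputable def P (u : ℂ) : ℝ := ∫ t in (0 : ℝ)..2 * π, d.rho (circ t * u)

/-- The disc mass divided by the squared radius. -/
noncomputable def Q (u : ℂ) : ℝ := ∫ s in (0 : ℝ)..1, s * d.P ((s : ℂ) * u)

/-- The angular correction. -/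
noncomputable def beta (u : ℂ) : ℝ := ∫ t in (0 : ℝ)..2 * π, t * (d.rho (circ t * u) / d.P u)

/-- The map from the density to the standard area form. -/
noncomputable def T (u : ℂ) : ℂ := (Real.sqrt (d.Q u / π) : ℂ) * circ (d.beta u) * u

/-- The mass of the disc of radius `r`. -/
noncomputable def mass (r : ℝ) : ℝ := ∫ s in (0 : ℝ)..r, s * d.P (s : ℂ)

theorem contDiff_rho_circ :
    ContDiff ℝ (⊤ : ℕ∞) (fun p : ℂ × ℝ => d.rho (circ p.2 * p.1)) :=
  d.smooth.comp ((contDiff_circ.comp contDiff_snd).mul contDiff_fst)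

theorem contDiff_P : ContDiff ℝ (⊤ : ℕ∞) d.P := contDiff_param d.contDiff_rho_circ 0 (2 * π)

theorem cont_rho_circ (u : ℂ) : Continuous fun t : ℝ => d.rho (circ t * u) :=
  d.smooth.continuous.comp (contDiff_circ.continuous.mul continuous_const)

theorem P_pos (u : ℂ) : 0 < d.P u :=
  intervalIntegral.intervalIntegral_pos_of_pos ((d.cont_rho_circ u).intervalIntegrable _ _)
    (fun _ => d.pos _) (by positivity)

theorem P_circ_mul (h : ℝ) (u : ℂ) : d.P (circ h * u) = d.P u := by
  have hper : Periodic (fun t => d.rho (circ t * u)) (2 * π) := fun t => by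
    simp only [circ_periodic t]
  have h1 : (fun t => d.rho (circ t * (circ h * u))) = fun t => d.rho (circ (t + h) * u) :=
    funext fun t => by rw [circ_add, mul_assoc]
  rw [P, h1, intervalIntegral.integral_comp_add_right (fun t => d.rho (circ t * u)), zero_add,
    add_comm, hper.intervalIntegral_add_eq h 0, zero_add, P]

theorem exists_circ (u : ℂ) : ∃ t : ℝ, u = circ t * (‖u‖ : ℂ) :=
  ⟨u.arg, by rw [circ, mul_comm]; exact (Complex.norm_mul_exp_arg_mul_I u).symm⟩

theorem P_norm (u : ℂ) : d.P u = d.P (‖u‖ : ℂ) := by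
  obtain ⟨t, ht⟩ := exists_circ u
  conv_lhs => rw [ht]
  exact d.P_circ_mul t _

theorem contDiff_Q : ContDiff ℝ (⊤ : ℕ∞) d.Q :=
  contDiff_param (F := fun p : ℂ × ℝ => p.2 * d.P ((p.2 : ℂ) * p.1)) (contDiff_snd.mul
    (d.contDiff_P.comp ((ofRealCLM.contDiff.comp contDiff_snd).mul contDiff_fst))) 0 1

theorem Q_pos (u : ℂ) : 0 < d.Q u :=
  intervalIntegral.intervalIntegral_pos_of_pos_on
    ((continuous_id.mul (d.contDiff_P.continuous.comp
      (continuous_ofReal.mul continuous_const))).intervalIntegrable _ _)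
    (fun _ hx => mul_pos hx.1 (d.P_pos _)) one_pos

theorem Q_circ_mul (h : ℝ) (u : ℂ) : d.Q (circ h * u) = d.Q u := by
  refine intervalIntegral.integral_congr fun s _ => ?_
  simp only [mul_left_comm _ (circ h) u, P_circ_mul]

theorem sq_mul_Q (r : ℝ) (u : ℂ) :
    r ^ 2 * d.Q ((r : ℂ) * u) = ∫ s in (0 : ℝ)..r, s * d.P ((s : ℂ) * u) := by
  have h := intervalIntegral.mul_integral_comp_mul_left
    (f := fun s : ℝ => s * d.P ((s : ℂ) * u)) (a := 0) (b := 1) r
  rw [mul_zero, mul_one] at h
  rw [← h, Q, ← intervalIntegral.integral_const_mul, ← intervalIntegral.integral_const_mul]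
  refine intervalIntegral.integral_congr fun s _ => ?_
  simp only [ofReal_mul, show (r : ℂ) * (s : ℂ) * u = (s : ℂ) * ((r : ℂ) * u) by ring]
  ring

theorem norm_T (u : ℂ) : π * ‖d.T u‖ ^ 2 = d.mass ‖u‖ := by
  have hq : d.Q u = d.Q (‖u‖ : ℂ) := by
    obtain ⟨t, ht⟩ := exists_circ u
    conv_lhs => rw [ht]
    exact d.Q_circ_mul t _
  have h2 := d.sq_mul_Q ‖u‖ 1
  simp only [mul_one] at h2
  rw [mass, ← h2, ← hq, T, norm_mul, norm_mul, norm_circ, mul_one, norm_real, Real.norm_eq_abs,
    abs_of_nonneg (Real.sqrt_nonneg _), mul_pow, Real.sq_sqrt (by have := d.Q_pos u; positivity)]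
  field_simp

theorem continuous_mass_integrand : Continuous fun s : ℝ => s * d.P (s : ℂ) :=
  continuous_id.mul (d.contDiff_P.continuous.comp continuous_ofReal)

theorem hasDerivAt_mass (r : ℝ) : HasDerivAt d.mass (r * d.P (r : ℂ)) r :=
  (d.continuous_mass_integrand.integral_hasStrictDerivAt 0 r).hasDerivAt

theorem mass_strictMonoOn : StrictMonoOn d.mass (Ici 0) :=
  strictMonoOn_of_hasDerivWithinAt_pos (convex_Ici 0)
    (fun r _ => (d.hasDerivAt_mass r).continuousAt.continuousWithinAt)
    (fun r _ => (d.hasDerivAt_mass r).hasDerivWithinAt)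
    (fun r hr => mul_pos (by simpa using hr) (d.P_pos _))

theorem contDiff_beta : ContDiff ℝ (⊤ : ℕ∞) d.beta :=
  contDiff_param (F := fun p : ℂ × ℝ => p.2 * (d.rho (circ p.2 * p.1) / d.P p.1))
    (contDiff_snd.mul (d.contDiff_rho_circ.div (d.contDiff_P.comp contDiff_fst)
      fun p => (d.P_pos p.1).ne')) 0 (2 * π)

theorem contDiff_T : ContDiff ℝ (⊤ : ℕ∞) d.T :=
  ((ofRealCLM.contDiff.comp ((d.contDiff_Q.div_const π).sqrt fun u =>
      (div_pos (d.Q_pos u) Real.pi_pos).ne')).mul
    (contDiff_circ.comp d.contDiff_beta)).mul contDiff_id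

/-- Derivative of the angular correction along a circle. -/
theorem hasDerivAt_beta_circ (u : ℂ) (h : ℝ) :
    HasDerivAt (fun t => d.beta (circ t * u)) (2 * π * d.rho (circ h * u) / d.P u - 1) h := by
  let g : ℝ → ℝ := fun t => d.rho (circ t * u)
  have hg : Continuous g := d.cont_rho_circ u
  have hper : Periodic g (2 * π) := fun t => by simp only [g, circ_periodic t]
  have hP : ∀ t, (∫ s in t..t + 2 * π, g s) = d.P u := fun t => by
    rw [hper.intervalIntegral_add_eq t 0, zero_add]; rfl
  have hsg : Continuous fun s => s * g s := continuous_id.mul hg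
  have heq : (fun t => d.beta (circ t * u)) = fun t =>
      (((∫ s in (0 : ℝ)..t + 2 * π, s * g s) - ∫ s in (0 : ℝ)..t, s * g s) - t * d.P u) /
        d.P u := by
    funext t
    rw [intervalIntegral.integral_interval_sub_left (hsg.intervalIntegrable _ _)
      (hsg.intervalIntegrable _ _), beta, d.P_circ_mul]
    have h1 : (fun s => s * (d.rho (circ s * (circ t * u)) / d.P u)) =
        fun s => (fun r => ((r - t) * g r) / d.P u) (s + t) := funext fun s => by
      simp only [g, circ_add, mul_assoc, add_sub_cancel_right, mul_div_assoc]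
    rw [h1, intervalIntegral.integral_comp_add_right (fun r => ((r - t) * g r) / d.P u),
      zero_add, add_comm (2 * π) t, intervalIntegral.integral_div]
    simp only [sub_mul]
    rw [intervalIntegral.integral_sub (f := fun s => s * g s) (g := fun s => t * g s)
      (hsg.intervalIntegrable _ _) ((continuous_const.mul hg).intervalIntegrable _ _),
      intervalIntegral.integral_const_mul, hP t]
  rw [heq]
  have h1 : HasDerivAt (fun t => ∫ s in (0 : ℝ)..t + 2 * π, s * g s)
      ((h + 2 * π) * g (h + 2 * π)) h := by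
    have := ((hsg.integral_hasStrictDerivAt 0 (h + 2 * π)).hasDerivAt).comp_add_const h (2 * π)
    exact this
  have h2 := (hsg.integral_hasStrictDerivAt 0 h).hasDerivAt
  refine (((h1.sub h2).sub ((hasDerivAt_id h).mul_const (d.P u))).div_const _).congr_deriv ?_
  simp only [hper h]
  field_simp [(d.P_pos u).ne']
  ring

theorem hasDerivAt_circ_zero (u : ℂ) : HasDerivAt (fun t => circ t * u) (I * u) 0 := by
  have h0 : HasDerivAt (fun t : ℝ => (t : ℂ) * I) (1 * I) 0 :=
    ((hasDerivAt_id (0 : ℝ)).ofReal_comp).mul_const I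
  have := (h0.cexp).mul_const u
  simpa [circ] using this

theorem fderiv_Q_rot (u : ℂ) : fderiv ℝ d.Q u (I * u) = 0 := by
  have h := HasFDerivAt.comp_hasDerivAt_of_eq (0 : ℝ)
    ((d.contDiff_Q.differentiable (by simp)) u).hasFDerivAt
    (hasDerivAt_circ_zero u) (by simp [circ_zero])
  have h2 : (d.Q ∘ fun t => circ t * u) = fun _ => d.Q u := funext fun t => d.Q_circ_mul t u
  rw [h2] at h
  exact h.unique (hasDerivAt_const _ _)

theorem fderiv_beta_rot (u : ℂ) :
    fderiv ℝ d.beta u (I * u) = 2 * π * d.rho u / d.P u - 1 := by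
  have h := HasFDerivAt.comp_hasDerivAt_of_eq (0 : ℝ)
    ((d.contDiff_beta.differentiable (by simp)) u).hasFDerivAt
    (hasDerivAt_circ_zero u) (by simp [circ_zero])
  exact h.unique (by simpa [circ_zero, comp_def] using d.hasDerivAt_beta_circ u 0)

theorem fderiv_Q_rad (u : ℂ) : 2 * d.Q u + fderiv ℝ d.Q u u = d.P u := by
  have h0 : HasDerivAt (fun r : ℝ => (r : ℂ) * u) u 1 := by
    simpa using ((hasDerivAt_id (1 : ℝ)).ofReal_comp).mul_const u
  have h := HasFDerivAt.comp_hasDerivAt_of_eq (1 : ℝ)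
    ((d.contDiff_Q.differentiable (by simp)) u).hasFDerivAt h0 (by simp)
  have h1 := ((hasDerivAt_pow 2 (1 : ℝ)).mul h)
  have hc : Continuous fun s : ℝ => s * d.P ((s : ℂ) * u) :=
    continuous_id.mul (d.contDiff_P.continuous.comp (continuous_ofReal.mul continuous_const))
  have h2 := (hc.integral_hasStrictDerivAt 0 1).hasDerivAt
  have heq : ((fun r : ℝ => r ^ 2) * (d.Q ∘ fun r : ℝ => (r : ℂ) * u)) =
      fun r => ∫ s in (0 : ℝ)..r, s * d.P ((s : ℂ) * u) := funext fun r => d.sq_mul_Q r u
  rw [heq] at h1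
  simpa using h1.unique h2

theorem jac_T (u : ℂ) : jac (fderiv ℝ d.T u) = d.rho u := by
  have hQ0 := d.Q_pos u
  have hQ := ((d.contDiff_Q.differentiable (by simp)) u).hasFDerivAt
  have hs : HasFDerivAt (fun z => Real.sqrt (d.Q z / π))
      ((1 / (2 * Real.sqrt (d.Q u / π))) • (π⁻¹ • fderiv ℝ d.Q u)) u := by
    have := (hQ.mul_const π⁻¹).sqrt (by positivity)
    simpa [div_eq_mul_inv] using this
  have hb := ((d.contDiff_beta.differentiable (by simp)) u).hasFDerivAt
  have hb2 : HasFDerivAt (fun z => circ (d.beta z))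
      (circ (d.beta u) • (I • (ofRealCLM.comp (fderiv ℝ d.beta u)))) u := by
    have := ((ofRealCLM.hasFDerivAt.comp u hb).mul_const I).cexp
    simpa [circ, comp_def] using this
  have hT : HasFDerivAt d.T _ u :=
    ((ofRealCLM.hasFDerivAt.comp u hs).mul hb2).mul (hasFDerivAt_id u)
  set Ds := (1 / (2 * Real.sqrt (d.Q u / π))) • (π⁻¹ • fderiv ℝ d.Q u) with hDs
  set s := Real.sqrt (d.Q u / π) with hsdef
  set e := circ (d.beta u) with he
  have hv : ∀ v, fderiv ℝ d.T u v =
      e * ((Ds v : ℂ) * u + (s : ℂ) * (I * (fderiv ℝ d.beta u v : ℂ) * u + v)) := by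
    intro v
    rw [hT.fderiv]
    simp [← hsdef, ← he, comp_def]
    ring
  have hrot : ∀ x y : ℂ, area (e * x) (e * y) = area x y := by
    intro x y
    have hn : e.re ^ 2 + e.im ^ 2 = 1 := by
      have h1 := Complex.sq_norm e
      rw [he, norm_circ, one_pow, normSq_apply] at h1
      rw [← he] at h1
      linarith
    have : area (e * x) (e * y) = (e.re ^ 2 + e.im ^ 2) * area x y := by
      simp [area]; ring
    rw [this, hn, one_mul]
  by_cases hu : u = 0
  · subst hu
    have hQ00 : d.Q 0 = π * d.rho 0 := by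
      simp [Q, P]
      ring
    rw [jac, hv, hv, hrot]
    simp only [mul_zero, zero_add, area, mul_re, mul_im, ofReal_re, ofReal_im, one_re, one_im,
      I_re, I_im]
    rw [hsdef]
    have := Real.mul_self_sqrt (show 0 ≤ d.Q 0 / π by positivity)
    rw [hQ00] at this ⊢
    rw [mul_div_assoc, ← mul_div_assoc, mul_div_cancel_left₀ _ Real.pi_ne_zero] at this
    simpa [mul_div_cancel_left₀ _ Real.pi_ne_zero] using this
  · have h1 := area_map (fderiv ℝ d.T u) u (I * u)
    rw [hv, hv, hrot] at h1
    have hDi : Ds (I * u) = 0 := by simp [hDs, d.fderiv_Q_rot u]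
    have hbi := d.fderiv_beta_rot u
    rw [hDi, hbi] at h1
    have hn : u.re ^ 2 + u.im ^ 2 ≠ 0 := by
      intro hc
      apply hu
      apply Complex.ext <;> simp <;> nlinarith [sq_nonneg u.re, sq_nonneg u.im]
    have h2 : (Ds u + s) * (s * (2 * π * d.rho u / d.P u)) = d.rho u := by
      have hQd := d.fderiv_Q_rad u
      have hs0 : 0 < s := Real.sqrt_pos.2 (by positivity)
      have hs2 : s * s = d.Q u / π := Real.mul_self_sqrt (by positivity)
      have hD : Ds u = 1 / (2 * s) * (π⁻¹ * fderiv ℝ d.Q u u) := by simp [hDs]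
      have hP := (d.P_pos u).ne'
      have hstep : s * (Ds u + s) = d.P u / (2 * π) := by
        rw [mul_add, hs2, hD, ← hQd]
        field_simp
        ring
      calc (Ds u + s) * (s * (2 * π * d.rho u / d.P u))
          = s * (Ds u + s) * (2 * π * d.rho u / d.P u) := by ring
        _ = d.rho u := by rw [hstep]; field_simp
    apply mul_right_cancel₀ hn
    rw [← h2]
    simp [area] at h1
    linear_combination -h1

end Density

end Vale.Agent.P209
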