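import Mathlib
import Vale.Agent.P209.Moser

namespace Vale.Agent.P209

open MeasureTheory Set Function Complex
open scoped Real ENNReal

/-- A real-linear automorphism from a map with nonzero Jacobian. -/
noncomputable def equivOfJac (A : ℂ →L[ℝ] ℂ) (hA : jac A ≠ 0) : ℂ ≃L[ℝ] ℂ :=
  A.toContinuousLinearEquivOfDetNeZero (by rwa [det_eq_jac])

theorem coe_equivOfJac (A : ℂ →L[ℝ] ℂ) (hA : jac A ≠ 0) :
    (equivOfJac A hA : ℂ →L[ℝ] ℂ) = A := by ext x; rfl

namespace Density

variable (d : Density)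

theorem norm_eq_of_T_eq {u v : ℂ} (h : d.T u = d.T v) : ‖u‖ = ‖v‖ := by
  apply d.mass_strictMonoOn.injOn (norm_nonneg u) (norm_nonneg v)
  rw [← d.norm_T, ← d.norm_T, h]

theorem T_zero : d.T 0 = 0 := by simp [T]

/-- Lifted angle along a circle. -/
noncomputable def angle (u : ℂ) (t : ℝ) : ℝ := t + d.beta (circ t * u)

theorem T_circ_mul (t : ℝ) (u : ℂ) :
    d.T (circ t * u) = (Real.sqrt (d.Q u / π) : ℂ) * u * circ (d.angle u t) := by
  rw [T, d.Q_circ_mul, angle, circ_add]
  ring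

theorem angle_add_period (u : ℂ) (t : ℝ) : d.angle u (t + 2 * π) = d.angle u t + 2 * π := by
  rw [angle, angle, circ_periodic t]; ring

theorem hasDerivAt_angle (u : ℂ) (t : ℝ) :
    HasDerivAt (d.angle u) (2 * π * d.rho (circ t * u) / d.P u) t := by
  refine ((hasDerivAt_id t).add (d.hasDerivAt_beta_circ u t)).congr_deriv ?_
  ring

theorem angle_strictMono (u : ℂ) : StrictMono (d.angle u) :=
  strictMono_of_hasDerivAt_pos (d.hasDerivAt_angle u)
    fun t => div_pos (mul_pos Real.two_pi_pos (d.pos _)) (d.P_pos u)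

theorem angle_add_int (u : ℂ) (t : ℝ) (m : ℤ) :
    d.angle u (t + m * (2 * π)) = d.angle u t + m * (2 * π) := by
  induction m with
  | zero => simp
  | succ m ih =>
      have h := d.angle_add_period u (t + (m : ℤ) * (2 * π))
      rw [ih] at h
      push_cast at h ⊢
      rw [show t + (m + 1 : ℝ) * (2 * π) = t + m * (2 * π) + 2 * π by ring, h]
      ring
  | pred m ih =>
      have h := d.angle_add_period u (t + (-(m : ℤ) - 1 : ℤ) * (2 * π))
      push_cast at h ih ⊢
      rw [show t + (-(m : ℝ) - 1) * (2 * π) + 2 * π = t + -(m : ℝ) * (2 * π) by ring, ih] at h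
      linarith

theorem circ_eq_iff {s t : ℝ} : circ s = circ t ↔ ∃ m : ℤ, s = t + m * (2 * π) := by
  rw [circ, circ, Complex.exp_eq_exp_iff_exists_int]
  refine exists_congr fun m => ⟨fun h => ?_, fun h => ?_⟩
  · simpa using congrArg Complex.im h
  · rw [h]; push_cast; ring

theorem T_injective : Injective d.T := by
  intro u v h
  have hn := d.norm_eq_of_T_eq h
  by_cases hu : u = 0
  · rw [hu, norm_zero] at hn
    rw [hu, norm_eq_zero.1 hn.symm]
  obtain ⟨a, ha⟩ := exists_circ u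
  obtain ⟨b, hb⟩ := exists_circ v
  rw [← hn] at hb
  rw [ha, hb, T_circ_mul, T_circ_mul] at h
  have h0 : (Real.sqrt (d.Q (‖u‖ : ℂ) / π) : ℂ) * (‖u‖ : ℂ) ≠ 0 :=
    mul_ne_zero (ofReal_ne_zero.2 (Real.sqrt_pos.2 (div_pos (d.Q_pos _) Real.pi_pos)).ne')
      (ofReal_ne_zero.2 (norm_ne_zero_iff.2 hu))
  obtain ⟨m, hm⟩ := circ_eq_iff.1 (mul_left_cancel₀ h0 h)
  rw [← d.angle_add_int] at hm
  rw [ha, hb, (circ_eq_iff (s := a) (t := b)).2 ⟨m, (d.angle_strictMono _).injective hm⟩]

theorem mem_range_T {z : ℂ} {R : ℝ} (hR : 0 ≤ R) (h : π * ‖z‖ ^ 2 ≤ d.mass R) :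
    z ∈ range d.T := by
  obtain ⟨r, hr, hr2⟩ := intermediate_value_Icc hR
    (fun r _ => (d.hasDerivAt_mass r).continuousAt.continuousWithinAt)
    (show π * ‖z‖ ^ 2 ∈ Icc (d.mass 0) (d.mass R) from ⟨by simp [mass]; positivity, h⟩)
  rcases eq_or_ne z 0 with rfl | hz
  · exact ⟨0, d.T_zero⟩
  obtain ⟨a, ha⟩ := exists_circ z
  have hc : Continuous (d.angle (r : ℂ)) :=
    continuous_iff_continuousAt.2 fun t => (d.hasDerivAt_angle _ t).continuousAt
  have h2 := d.angle_add_period (r : ℂ) 0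
  rw [zero_add] at h2
  obtain ⟨m, hm⟩ : ∃ m : ℤ, a + m * (2 * π) ∈
      Icc (d.angle (r : ℂ) 0) (d.angle (r : ℂ) (2 * π)) := by
    refine ⟨⌈(d.angle (r : ℂ) 0 - a) / (2 * π)⌉, ?_, ?_⟩
    · have := (div_le_iff₀ Real.two_pi_pos).1 (Int.le_ceil ((d.angle (r : ℂ) 0 - a) / (2 * π)))
      linarith
    · have := mul_lt_mul_of_pos_right
        (Int.ceil_lt_add_one ((d.angle (r : ℂ) 0 - a) / (2 * π))) Real.two_pi_pos
      rw [add_mul, one_mul, div_mul_cancel₀ _ Real.two_pi_pos.ne'] at this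
      linarith
  obtain ⟨t, -, ht⟩ := intermediate_value_Icc Real.two_pi_pos.le hc.continuousOn hm
  refine ⟨circ t * (r : ℂ), ?_⟩
  rw [T_circ_mul, ht, (circ_eq_iff (t := a)).2 ⟨m, rfl⟩]
  have hnT : ‖d.T (r : ℂ)‖ = ‖z‖ := by
    have h3 := d.norm_T (r : ℂ)
    rw [norm_real, Real.norm_eq_abs, abs_of_nonneg hr.1, hr2] at h3
    exact (sq_eq_sq₀ (norm_nonneg _) (norm_nonneg _)).1 (mul_left_cancel₀ Real.pi_ne_zero h3)
  have h4 : (Real.sqrt (d.Q (r : ℂ) / π) : ℂ) * (r : ℂ) = (‖z‖ : ℂ) := by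
    rw [← hnT, T, norm_mul, norm_mul, norm_circ, mul_one, norm_real, norm_real,
      Real.norm_eq_abs, Real.norm_eq_abs, abs_of_nonneg (Real.sqrt_nonneg _),
      abs_of_nonneg hr.1, ofReal_mul]
  rw [h4, mul_comm]
  exact ha.symm

theorem hasFDerivAt_T (u : ℂ) :
    HasFDerivAt d.T ((equivOfJac _ (by rw [d.jac_T]; exact (d.pos u).ne') : ℂ ≃L[ℝ] ℂ) :
      ℂ →L[ℝ] ℂ) u := by
  rw [coe_equivOfJac]
  exact ((d.contDiff_T.differentiable (by simp)) u).hasFDerivAt

theorem isOpen_range_T : IsOpen (range d.T) := by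
  rw [isOpen_iff_mem_nhds]
  rintro _ ⟨u, rfl⟩
  have hs := d.contDiff_T.contDiffAt.hasStrictFDerivAt' (d.hasFDerivAt_T u) (by simp)
  rw [← hs.map_nhds_eq_of_equiv]
  have h := Filter.image_mem_map (m := d.T) (Filter.univ_mem (f := nhds u))
  rwa [image_univ] at h

theorem contDiffAt_invFun (u : ℂ) :
    ContDiffAt ℝ (⊤ : ℕ∞) (invFun d.T) (d.T u) := by
  have hn : ((⊤ : ℕ∞) : WithTop ℕ∞) ≠ 0 := by simp
  have hc : ContDiffAt ℝ (⊤ : ℕ∞) d.T u := d.contDiff_T.contDiffAt
  refine (hc.to_localInverse (d.hasFDerivAt_T u) hn).congr_of_eventuallyEq ?_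
  filter_upwards [(hc.hasStrictFDerivAt' (d.hasFDerivAt_T u) hn).eventually_right_inverse]
    with y hy
  conv_lhs => rw [← hy]
  exact (leftInverse_invFun d.T_injective) _

/-- Total mass in a disc bounds the area of any image with the same density. -/
theorem volume_image_le {M : ℂ → ℂ} {M' : ℂ → ℂ →L[ℝ] ℂ} (hM : ∀ u, HasFDerivAt M (M' u) u)
    (hinj : Injective M) (hj : ∀ u, |jac (M' u)| = d.rho u) {s : ℝ} (hs : 0 ≤ s) :
    volume (M '' Metric.closedBall 0 s) ≤ ENNReal.ofReal (d.mass s) := by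
  have hmeas : MeasurableSet (Metric.closedBall (0 : ℂ) s) := measurableSet_closedBall
  have e1 := lintegral_abs_det_fderiv_eq_addHaar_image volume hmeas
    (fun u _ => (hM u).hasFDerivWithinAt) hinj.injOn
  have e2 := lintegral_abs_det_fderiv_eq_addHaar_image volume hmeas
    (fun u _ => ((d.contDiff_T.differentiable (by simp)) u).hasFDerivAt.hasFDerivWithinAt)
    d.T_injective.injOn
  simp only [det_eq_jac, hj, d.jac_T, abs_of_pos (d.pos _)] at e1 e2
  rw [← e1, e2]
  have hm : 0 ≤ d.mass s / π := by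
    have := d.mass_strictMonoOn.monotoneOn self_mem_Ici hs hs
    simp only [mass, intervalIntegral.integral_same] at this
    exact div_nonneg this Real.pi_pos.le
  calc volume (d.T '' Metric.closedBall 0 s)
      ≤ volume (Metric.closedBall (0 : ℂ) (Real.sqrt (d.mass s / π))) := by
        refine measure_mono ?_
        rintro _ ⟨u, hu, rfl⟩
        rw [mem_closedBall_zero_iff] at hu ⊢
        refine Real.le_sqrt_of_sq_le ?_
        rw [le_div_iff₀' Real.pi_pos, d.norm_T]
        exact d.mass_strictMonoOn.monotoneOn (norm_nonneg _) hs hu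
    _ = ENNReal.ofReal (d.mass s) := by
        rw [Complex.volume_closedBall, ← ENNReal.ofReal_pow (Real.sqrt_nonneg _),
          Real.sq_sqrt hm, show ((NNReal.pi : NNReal) : ENNReal) = ENNReal.ofReal π from
            (ENNReal.ofReal_coe_nnreal (p := NNReal.pi)).symm,
          ← ENNReal.ofReal_mul hm, div_mul_cancel₀ _ Real.pi_ne_zero]

end Density

namespace Chart

variable (c : Chart)

noncomputable def density : Density := ⟨c.rho, c.contDiff_rho, c.rho_pos⟩

theorem rect_le_mass {s x y : ℝ} (hs : 0 ≤ s) (hx : 0 ≤ x) (hxy : x ^ 2 + y ^ 2 ≤ s ^ 2)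
    (hy : 0 ≤ y) : (c.F x - c.F (-x)) * (c.G y - c.G (-y)) ≤ c.density.mass s := by
  have h := c.density.volume_image_le c.hasFDerivAt_M c.M_injective
    (fun u => by rw [c.jac_M', abs_of_pos (c.rho_pos u)]; rfl) hs
  have hsub : Icc (c.F (-x)) (c.F x) ×ℂ Icc (c.G (-y)) (c.G y) ⊆
      c.M '' Metric.closedBall 0 s := by
    intro z hz
    rw [mem_reProdIm] at hz
    obtain ⟨p, hp, hpe⟩ := intermediate_value_Icc (show -x ≤ x by linarith)
      c.contDiff_F.continuous.continuousOn hz.1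
    obtain ⟨q, hq, hqe⟩ := intermediate_value_Icc (show -y ≤ y by linarith)
      c.contDiff_G.continuous.continuousOn hz.2
    refine ⟨⟨p, q⟩, ?_, ?_⟩
    · rw [mem_closedBall_zero_iff, ← abs_of_nonneg hs, ← abs_norm]
      rw [← sq_le_sq, Complex.sq_norm, normSq_apply]
      nlinarith [hp.1, hp.2, hq.1, hq.2]
    · exact Complex.ext (by simp [Chart.M, hpe]) (by simp [Chart.M, hqe])
  have hv := (measure_mono hsub).trans h
  have hrect : volume (Icc (c.F (-x)) (c.F x) ×ℂ Icc (c.G (-y)) (c.G y)) =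
      ENNReal.ofReal ((c.F x - c.F (-x)) * (c.G y - c.G (-y))) := by
    have : Icc (c.F (-x)) (c.F x) ×ℂ Icc (c.G (-y)) (c.G y) =
        Complex.measurableEquivRealProd ⁻¹'
          (Icc (c.F (-x)) (c.F x) ×ˢ Icc (c.G (-y)) (c.G y)) := by
      ext z; simp [mem_reProdIm, Complex.measurableEquivRealProd_apply]; tauto
    rw [this, Complex.volume_preserving_equiv_real_prod.measure_preimage
      (measurableSet_Icc.prod measurableSet_Icc).nullMeasurableSet, Measure.volume_eq_prod,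
      Measure.prod_prod, Real.volume_Icc, Real.volume_Icc, ← ENNReal.ofReal_mul
        (sub_nonneg.2 (c.F_strictMono.monotone (by linarith)))]
  rw [hrect] at hv
  have hm : 0 ≤ c.density.mass s := by
    have := c.density.mass_strictMonoOn.monotoneOn self_mem_Ici hs hs
    simpa [Density.mass] using this
  exact (ENNReal.ofReal_le_ofReal_iff hm).1 hv

end Chart

/-- An area-preserving chart of a disc inside the half-strip, almost respecting areas. -/
theorem exists_disc_chart (S δ : ℝ) (hS : 0 < S) (hδ : 0 < δ) :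
    ∃ σ : ℂ → ℂ, ContDiffOn ℝ (⊤ : ℕ∞) σ {z | π * ‖z‖ ^ 2 < S} ∧
      InjOn σ {z | π * ‖z‖ ^ 2 < S} ∧
      (∀ z, π * ‖z‖ ^ 2 < S → ∀ v w, area (fderiv ℝ σ z v) (fderiv ℝ σ z w) = area v w) ∧
      (∀ z, π * ‖z‖ ^ 2 < S →
        0 < (σ z).re ∧ (σ z).re ≤ π * ‖z‖ ^ 2 + δ ∧ 0 < (σ z).im ∧ (σ z).im < 1) := by
  set η := min (1 / 4) (δ / (16 * (S + 1))) with hηdef
  have hη : 0 < η := lt_min (by norm_num) (by positivity)
  have hη4 : η ≤ 1 / 4 := min_le_left _ _
  have hηS : η * (16 * (S + 1)) ≤ δ := (le_div_iff₀ (by positivity)).1 (min_le_right _ _)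
  set ε := min 1 (δ / 8) with hεdef
  have hε : 0 < ε := lt_min one_pos (by linarith)
  have hε1 : ε ≤ 1 := min_le_left _ _
  have hεδ : ε ≤ δ / 8 := min_le_right _ _
  let c : Chart := ⟨ε, 4 / (δ * η ^ 2), hε, by positivity⟩
  set d := c.density with hd
  -- mass lower bound in the range where the strip is essentially saturated
  have hlow : ∀ s, δ / 2 ≤ s → (1 - 2 * η) * s - ε ≤ d.mass s := by
    intro s hs
    have hs0 : 0 < s := by linarith
    have h := c.rect_le_mass hs0.le (x := (1 - η) * s) (y := η * s)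
      (mul_nonneg (by linarith) hs0.le) (by nlinarith [sq_nonneg s]) (by positivity)
    have hF : (1 - η) * s - ε ≤ c.F ((1 - η) * s) - c.F (-((1 - η) * s)) := by
      have := c.F_le_of_nonpos (x := -((1 - η) * s)) (by nlinarith)
      have := c.F_ge ((1 - η) * s)
      have : c.eps = ε := rfl
      linarith
    have hG : 1 - η ≤ c.G (η * s) - c.G (-(η * s)) := by
      simp only [Chart.G, mul_neg, Real.sigmoid_neg]
      have hY : 2 / η ≤ c.steep * (η * s) := by
        show 2 / η ≤ 4 / (δ * η ^ 2) * (η * s)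
        rw [div_mul_eq_mul_div, div_le_div_iff₀ hη (by positivity)]
        nlinarith [mul_pos hη hη]
      have h1 : 1 - η / 2 ≤ Real.sigmoid (c.steep * (η * s)) := by
        rw [Real.sigmoid_def]
        set Y := c.steep * (η * s)
        have he : Real.exp (-Y) ≤ η / 2 := by
          rw [Real.exp_neg]
          calc (Real.exp Y)⁻¹ ≤ (2 / η)⁻¹ :=
                inv_anti₀ (by positivity) (hY.trans (by linarith [Real.add_one_le_exp Y]))
            _ = η / 2 := inv_div 2 η
        rw [inv_eq_one_div, le_div_iff₀ (by positivity)]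
        nlinarith [Real.exp_pos (-Y)]
      linarith
    have hG1 : c.G (η * s) - c.G (-(η * s)) ≤ 1 := by
      linarith [(c.G_mem (η * s)).2, (c.G_mem (-(η * s))).1]
    have hF0 : 0 ≤ c.F ((1 - η) * s) - c.F (-((1 - η) * s)) :=
      sub_nonneg.2 (c.F_strictMono.monotone (by nlinarith))
    calc (1 - 2 * η) * s - ε ≤ (c.F ((1 - η) * s) - c.F (-((1 - η) * s))) * (1 - η) := by
          nlinarith [mul_le_mul_of_nonneg_right hF (show 0 ≤ 1 - η by linarith),
            mul_nonneg (sq_nonneg η) hs0.le, mul_pos hε hη]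
      _ ≤ _ := mul_le_mul_of_nonneg_left hG hF0
      _ ≤ _ := h
  have hsub : {z : ℂ | π * ‖z‖ ^ 2 < S} ⊆ range d.T := by
    intro z (hz : π * ‖z‖ ^ 2 < S)
    have hR : δ / 2 ≤ 2 * (S + 1) + δ := by linarith
    refine d.mem_range_T (R := 2 * (S + 1) + δ) (by linarith) (le_trans ?_ (hlow _ hR))
    nlinarith
  have hopen : IsOpen {z : ℂ | π * ‖z‖ ^ 2 < S} :=
    isOpen_lt (continuous_const.mul (continuous_norm.pow 2)) continuous_const
  refine ⟨c.M ∘ invFun d.T, ?_, ?_, ?_, ?_⟩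
  · intro z hz
    obtain ⟨u, rfl⟩ := hsub hz
    exact (c.contDiff_M.contDiffAt.comp _ (d.contDiffAt_invFun u)).contDiffWithinAt
  · intro a ha b hb h
    obtain ⟨u, rfl⟩ := hsub ha
    obtain ⟨v, rfl⟩ := hsub hb
    simp only [comp_apply, leftInverse_invFun d.T_injective _] at h
    rw [c.M_injective h]
  · intro z hz v w
    obtain ⟨u, rfl⟩ := hsub (show z ∈ {z : ℂ | π * ‖z‖ ^ 2 < S} from hz)
    have hi := ((d.contDiffAt_invFun u).differentiableAt (by simp)).hasFDerivAt
    have hT := ((d.contDiff_T.differentiable (by simp)) u).hasFDerivAt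
    set A := fderiv ℝ (invFun d.T) (d.T u) with hA
    have hu : invFun d.T (d.T u) = u := leftInverse_invFun d.T_injective u
    have hMc : HasFDerivAt (c.M ∘ invFun d.T) ((c.M' u).comp A) (d.T u) := by
      have := c.hasFDerivAt_M u
      exact HasFDerivAt.comp (d.T u) (by rwa [hu]) hi
    have hTA : ∀ x, fderiv ℝ d.T u (A x) = x := by
      have h1 : HasFDerivAt (d.T ∘ invFun d.T) ((fderiv ℝ d.T u).comp A) (d.T u) :=
        HasFDerivAt.comp (d.T u) (by rwa [hu]) hi
      have h2 : HasFDerivAt (d.T ∘ invFun d.T) (ContinuousLinearMap.id ℝ ℂ) (d.T u) := by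
        refine (hasFDerivAt_id (d.T u)).congr_of_eventuallyEq ?_
        filter_upwards [d.isOpen_range_T.mem_nhds ⟨u, rfl⟩] with y hy
        exact invFun_eq hy
      intro x
      exact congrArg (fun L : ℂ →L[ℝ] ℂ => L x) (h1.unique h2)
    rw [hMc.fderiv, ContinuousLinearMap.comp_apply, ContinuousLinearMap.comp_apply, area_map,
      c.jac_M']
    calc c.rho u * area (A v) (A w)
        = area (fderiv ℝ d.T u (A v)) (fderiv ℝ d.T u (A w)) := by
          conv_rhs => rw [area_map, d.jac_T]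
          rfl
      _ = area v w := by rw [hTA, hTA]
  · intro z hz
    obtain ⟨u, rfl⟩ := hsub (show z ∈ {z : ℂ | π * ‖z‖ ^ 2 < S} from hz)
    have hu : invFun d.T (d.T u) = u := leftInverse_invFun d.T_injective u
    rw [d.norm_T] at hz ⊢
    simp only [comp_apply, hu, Chart.M, add_re, add_im, mul_re, mul_im, ofReal_re, ofReal_im,
      I_re, I_im, mul_zero, mul_one, zero_mul, sub_zero, add_zero, zero_add]
    refine ⟨c.F_pos _, ?_, (c.G_mem _).1, (c.G_mem _).2⟩
    set s := ‖u‖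
    have hs : 0 ≤ s := norm_nonneg u
    have hFs : c.F u.re ≤ s + ε :=
      (c.F_strictMono.monotone ((le_abs_self _).trans (Complex.abs_re_le_norm u))).trans
        (c.F_le_of_nonneg hs)
    have hm : 0 ≤ d.mass s := by
      have := d.mass_strictMonoOn.monotoneOn self_mem_Ici hs hs
      simpa [Density.mass] using this
    by_cases hcase : δ / 2 ≤ s
    · have h1 := hlow s hcase
      have h2 : s ≤ 2 * (S + 1) := by nlinarith
      nlinarith
    · linarith

end Vale.Agent.P209
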