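import Mathlib

namespace Vale.Agent.P209

open Set
open scoped Real

/-- The standard symplectic form on complex coordinate space. -/
def omega {n : ℕ} (v w : Fin n → ℂ) : ℝ :=
  ∑ j, ((v j).re * (w j).im - (v j).im * (w j).re)

/-- The closed ball of capacity `a`. -/
def ball (n : ℕ) (a : ℝ) : Set (Fin n → ℂ) := {z | π * ∑ j, ‖z j‖ ^ 2 ≤ a}

/-- The open ball of capacity `a`. -/
def openBall (n : ℕ) (a : ℝ) : Set (Fin n → ℂ) := {z | π * ∑ j, ‖z j‖ ^ 2 < a}

/-- A symplectic embedding of the closed ball of capacity `a`: a smooth injective map of an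
open neighbourhood of the ball, pulling the standard form back to itself. -/
def IsSympEmbedding {n : ℕ} (a : ℝ) (f : (Fin n → ℂ) → (Fin n → ℂ)) : Prop :=
  ∃ U : Set (Fin n → ℂ), IsOpen U ∧ ball n a ⊆ U ∧ ContDiffOn ℝ (⊤ : ℕ∞) f U ∧ InjOn f U ∧
    ∀ z ∈ U, ∀ v w, omega (fderiv ℝ f z v) (fderiv ℝ f z w) = omega v w

/-- The balls of capacities `r i` pack symplectically into the open ball of capacity `R`. -/
def Packs {ι : Type} (n : ℕ) (R : ℝ) (r : ι → ℝ) : Prop :=
  ∃ f : ι → (Fin n → ℂ) → (Fin n → ℂ),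
    (∀ i, IsSympEmbedding (r i) (f i)) ∧ (∀ i, f i '' ball n (r i) ⊆ openBall n R) ∧
    ∀ i j, i ≠ j → Disjoint (f i '' ball n (r i)) (f j '' ball n (r j))

end Vale.Agent.P209
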