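import Mathlib
import Vale.Agent.P209.Symp
import Vale.Agent.P209.Disc

namespace Vale.Agent.P209

open Set Function Complex
open scoped Real

/-- The open standard simplex of size `b` in moment coordinates. -/
def simplex (n : ℕ) (b : ℝ) : Set (Fin n → ℝ) := {x | (∀ i, 0 < x i) ∧ ∑ i, x i < b}

/-- A real linear equivalence carrying integer vectors to integer vectors. -/
def IsIntegral {n : ℕ} (M : (Fin n → ℝ) ≃ₗ[ℝ] (Fin n → ℝ)) : Prop :=
  ∀ x : Fin n → ℝ, (∀ i, ∃ m : ℤ, x i = (m : ℝ)) → ∀ i, ∃ m : ℤ, M x i = (m : ℝ)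

/-- `V` receives an integral affine copy of the open simplex of size `b`. -/
def Fits {n : ℕ} (b : ℝ) (V : Set (Fin n → ℝ)) : Prop :=
  ∃ M : (Fin n → ℝ) ≃ₗ[ℝ] (Fin n → ℝ), IsIntegral M ∧
    ∃ t : Fin n → ℝ, ∀ x ∈ simplex n b, t + M x ∈ V

theorem Fits.mono {n : ℕ} {b : ℝ} {V W : Set (Fin n → ℝ)} (h : Fits b V) (hVW : V ⊆ W) :
    Fits b W := by
  obtain ⟨M, hM, t, ht⟩ := h
  exact ⟨M, hM, t, fun x hx => hVW (ht x hx)⟩

/-- Inverse transpose. -/
noncomputable def dual {n : ℕ} (M : (Fin n → ℝ) ≃ₗ[ℝ] (Fin n → ℝ)) :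
    (Fin n → ℝ) →ₗ[ℝ] (Fin n → ℝ) where
  toFun θ i := ∑ j, θ j * M.symm (Pi.single i 1) j
  map_add' x y := by ext i; simp [add_mul, Finset.sum_add_distrib]
  map_smul' c x := by ext i; simp [Finset.mul_sum, mul_assoc]

theorem dual_pairing {n : ℕ} (M : (Fin n → ℝ) ≃ₗ[ℝ] (Fin n → ℝ)) (a θ : Fin n → ℝ) :
    ∑ i, M a i * dual M θ i = ∑ i, a i * θ i := by
  have h : M.symm (M a) = ∑ i, M a i • M.symm (Pi.single i 1) := by
    conv_lhs => rw [pi_eq_sum_univ (M a)]
    rw [map_sum]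
    refine Finset.sum_congr rfl fun i _ => ?_
    rw [map_smul]
    congr 2
    ext j
    simp [Pi.single_apply, eq_comm]
  rw [LinearEquiv.symm_apply_apply] at h
  conv_rhs => rw [h]
  simp only [Finset.sum_apply, Pi.smul_apply, smul_eq_mul, Finset.sum_mul, dual,
    LinearMap.coe_mk, AddHom.coe_mk, Finset.mul_sum]
  rw [Finset.sum_comm]
  exact Finset.sum_congr rfl fun j _ => Finset.sum_congr rfl fun i _ => by ring

theorem dual_int {n : ℕ} {M : (Fin n → ℝ) ≃ₗ[ℝ] (Fin n → ℝ)} (hM : IsIntegral M)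
    {θ : Fin n → ℝ} (h : ∀ i, ∃ m : ℤ, dual M θ i = (m : ℝ)) (j : Fin n) : ∃ m : ℤ, θ j = (m : ℝ) := by
  have hj : ∀ i, ∃ m : ℤ, M (Pi.single j 1) i = (m : ℝ) := hM _ fun i => by
    by_cases hi : i = j
    · exact ⟨1, by simp [hi]⟩
    · exact ⟨0, by simp [hi]⟩
  choose a ha using hj
  choose c hc using h
  refine ⟨∑ i, a i * c i, ?_⟩
  have := dual_pairing M (Pi.single j 1) θ
  simp only [ha, hc, Pi.single_apply, ite_mul, one_mul, zero_mul, Finset.sum_ite_eq',
    Finset.mem_univ, if_true] at this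
  rw [← this]
  push_cast
  rfl

/-- Action-angle coordinates to Cartesian coordinates, one factor. -/
noncomputable def polar (w : ℂ) : ℂ :=
  (Real.sqrt (w.re / π) : ℂ) * exp (((2 * π * w.im : ℝ) : ℂ) * I)

theorem norm_polar (w : ℂ) (hw : 0 < w.re) : π * ‖polar w‖ ^ 2 = w.re := by
  rw [polar, norm_mul, Complex.norm_exp_ofReal_mul_I, mul_one, norm_real, Real.norm_eq_abs,
    abs_of_nonneg (Real.sqrt_nonneg _), Real.sq_sqrt (by positivity)]
  field_simp

theorem polar_eq {v w : ℂ} (hv : 0 < v.re) (hw : 0 < w.re) (h : polar v = polar w) :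
    v.re = w.re ∧ ∃ m : ℤ, v.im - w.im = (m : ℝ) := by
  have hr : v.re = w.re := by rw [← norm_polar v hv, ← norm_polar w hw, h]
  refine ⟨hr, ?_⟩
  rw [polar, polar, hr] at h
  have h2 := mul_left_cancel₀
    (ofReal_ne_zero.2 (Real.sqrt_pos.2 (div_pos hw Real.pi_pos)).ne') h
  obtain ⟨m, hm⟩ := Complex.exp_eq_exp_iff_exists_int.1 h2
  refine ⟨m, ?_⟩
  have h3 := congrArg Complex.im hm
  simp at h3
  have hpi : (2 * π) ≠ 0 := by positivity
  apply mul_left_cancel₀ hpi
  linarith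

theorem contDiffAt_polar {w : ℂ} (hw : 0 < w.re) : ContDiffAt ℝ (⊤ : ℕ∞) polar w := by
  refine ContDiffAt.mul (ofRealCLM.contDiff.contDiffAt.comp w
    ((reCLM.contDiff.contDiffAt.div_const π).sqrt (div_pos hw Real.pi_pos).ne')) ?_
  exact (((ofRealCLM.contDiff.comp
    (contDiff_const.mul imCLM.contDiff)).mul contDiff_const).cexp).contDiffAt

theorem area_polar {w : ℂ} (hw : 0 < w.re) (x y : ℂ) :
    area (fderiv ℝ polar w x) (fderiv ℝ polar w y) = area x y := by
  have h0 : (0 : ℝ) < w.re / π := div_pos hw Real.pi_pos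
  have h1 : HasFDerivAt (fun z : ℂ => Real.sqrt (z.re / π))
      ((1 / (2 * Real.sqrt (w.re / π))) • (π⁻¹ • reCLM)) w := by
    have h := (reCLM.hasFDerivAt (x := w)).mul_const π⁻¹
    have h2 := h.sqrt (show reCLM w * π⁻¹ ≠ 0 from by
      simpa [div_eq_mul_inv] using h0.ne')
    simpa [div_eq_mul_inv] using h2
  have h2 : HasFDerivAt (fun z : ℂ => exp (((2 * π * z.im : ℝ) : ℂ) * I))
      (exp (((2 * π * w.im : ℝ) : ℂ) * I) •
        (I • ofRealCLM.comp ((2 * π) • imCLM))) w :=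
    (((ofRealCLM.hasFDerivAt.comp w
      ((imCLM.hasFDerivAt (x := w)).const_mul (2 * π))).mul_const I).cexp)
  have h : HasFDerivAt polar _ w := (ofRealCLM.hasFDerivAt.comp w h1).mul h2
  rw [area_map, h.fderiv]
  have : jac (((ofRealCLM ∘ fun z : ℂ => Real.sqrt (z.re / π)) w) •
      (exp (((2 * π * w.im : ℝ) : ℂ) * I) • (I • ofRealCLM.comp ((2 * π) • imCLM))) +
      exp (((2 * π * w.im : ℝ) : ℂ) * I) •
        ofRealCLM.comp ((1 / (2 * Real.sqrt (w.re / π))) • (π⁻¹ • reCLM))) = 1 := by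
    have he : (exp (((2 * π * w.im : ℝ) : ℂ) * I)).re ^ 2 +
        (exp (((2 * π * w.im : ℝ) : ℂ) * I)).im ^ 2 = 1 := by
      rw [exp_ofReal_mul_I_re, exp_ofReal_mul_I_im, Real.cos_sq_add_sin_sq]
    generalize exp (((2 * π * w.im : ℝ) : ℂ) * I) = e at he ⊢
    simp [jac, area]
    have hs := (Real.sqrt_pos.2 h0).ne'
    field_simp
    linear_combination he
  rw [this, one_mul]

/-- Componentwise application of a planar map. -/
noncomputable def cw {n : ℕ} (g : ℂ → ℂ) (z : Fin n → ℂ) : Fin n → ℂ := fun j => g (z j)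

theorem hasFDerivAt_cw {n : ℕ} {g : ℂ → ℂ} {z : Fin n → ℂ}
    (hg : ∀ j, DifferentiableAt ℝ g (z j)) :
    HasFDerivAt (cw g) (ContinuousLinearMap.pi fun j =>
      (fderiv ℝ g (z j)).comp (ContinuousLinearMap.proj j)) z :=
  hasFDerivAt_pi.2 fun j => (hg j).hasFDerivAt.comp z (hasFDerivAt_apply j z)

theorem omega_cw {n : ℕ} {g : ℂ → ℂ} {z : Fin n → ℂ}
    (h : ∀ j, ∀ x y, area (fderiv ℝ g (z j) x) (fderiv ℝ g (z j) y) = area x y)
    (v w : Fin n → ℂ) :
    omega ((ContinuousLinearMap.pi fun j => (fderiv ℝ g (z j)).comp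
        (ContinuousLinearMap.proj j)) v)
      ((ContinuousLinearMap.pi fun j => (fderiv ℝ g (z j)).comp
        (ContinuousLinearMap.proj j)) w) = omega v w :=
  Finset.sum_congr rfl fun j _ => h j (v j) (w j)

/-- The linear action-angle change induced by an integral change of moment coordinates. -/
noncomputable def lift {n : ℕ} (M : (Fin n → ℝ) ≃ₗ[ℝ] (Fin n → ℝ)) :
    (Fin n → ℂ) →L[ℝ] (Fin n → ℂ) :=
  LinearMap.toContinuousLinearMap
    { toFun := fun z i => ⟨M (fun j => (z j).re) i, dual M (fun j => (z j).im) i⟩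
      map_add' := fun x y => by
        funext i
        apply Complex.ext
        · exact congrFun (M.map_add (fun j => (x j).re) (fun j => (y j).re)) i
        · exact congrFun ((dual M).map_add (fun j => (x j).im) (fun j => (y j).im)) i
      map_smul' := fun c x => by
        funext i
        apply Complex.ext
        · simp only [RingHom.id_apply, Pi.smul_apply, smul_re, smul_eq_mul]
          exact congrFun (M.map_smul c (fun j => (x j).re)) i
        · simp only [RingHom.id_apply, Pi.smul_apply, smul_im, smul_eq_mul]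
          exact congrFun ((dual M).map_smul c (fun j => (x j).im)) i }

theorem lift_re {n : ℕ} (M : (Fin n → ℝ) ≃ₗ[ℝ] (Fin n → ℝ)) (z : Fin n → ℂ) (i : Fin n) :
    (lift M z i).re = M (fun j => (z j).re) i := rfl

theorem lift_im {n : ℕ} (M : (Fin n → ℝ) ≃ₗ[ℝ] (Fin n → ℝ)) (z : Fin n → ℂ) (i : Fin n) :
    (lift M z i).im = dual M (fun j => (z j).im) i := rfl

theorem omega_lift {n : ℕ} (M : (Fin n → ℝ) ≃ₗ[ℝ] (Fin n → ℝ)) (v w : Fin n → ℂ) :
    omega (lift M v) (lift M w) = omega v w := by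
  simp only [omega, Finset.sum_sub_distrib, lift_re, lift_im]
  rw [dual_pairing M (fun j => (v j).re) (fun j => (w j).im)]
  have := dual_pairing M (fun j => (w j).re) (fun j => (v j).im)
  simp only [mul_comm] at this ⊢
  rw [this]

/-- Traynor's construction: a ball embeds over any integral affine copy of a larger simplex. -/
theorem exists_embedding {n : ℕ} {a b : ℝ} (hab : a < b) {V : Set (Fin n → ℝ)}
    (hV : Fits b V) (hpos : ∀ x ∈ V, ∀ i, 0 < x i) :
    ∃ f : (Fin n → ℂ) → (Fin n → ℂ), IsSympEmbedding a f ∧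
      ∀ z ∈ ball n a, (fun i => π * ‖f z i‖ ^ 2) ∈ V := by
  obtain ⟨M, hM, t, ht⟩ := hV
  obtain ⟨a', ha', ha'b⟩ : ∃ a', max a 0 < a' ∧ (a' < b ∨ b ≤ 0) := by
    by_cases hb : 0 < b
    · obtain ⟨a', h1, h2⟩ := exists_between (max_lt hab hb)
      exact ⟨a', h1, Or.inl h2⟩
    · exact ⟨max a 0 + 1, by linarith, Or.inr (not_lt.1 hb)⟩
  rcases ha'b with ha'b | hb0
  swap
  · refine ⟨id, ⟨univ, isOpen_univ, subset_univ _, contDiff_id.contDiffOn, injOn_id _,
      fun z _ v w => by simp [fderiv_id]⟩, fun z hz => ?_⟩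
    exfalso
    have hz' : π * ∑ j, ‖z j‖ ^ 2 ≤ a := hz
    have : 0 ≤ π * ∑ j, ‖z j‖ ^ 2 := by positivity
    linarith
  have ha0 : 0 < a' := (le_max_right a 0).trans_lt ha'
  set δ := (b - a') / (n + 1) with hδdef
  have hδ : 0 < δ := div_pos (sub_pos.2 ha'b) (by positivity)
  have hnδ : (n + 1) * δ = b - a' := mul_div_cancel₀ _ (by positivity)
  obtain ⟨σ, hσs, hσi, hσa, hσb⟩ := exists_disc_chart a' δ ha0 hδ
  let U : Set (Fin n → ℂ) := openBall n a'
  have hmemU : ∀ z ∈ U, ∀ j, π * ‖z j‖ ^ 2 < a' := by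
    intro z hz j
    refine lt_of_le_of_lt (mul_le_mul_of_nonneg_left ?_ Real.pi_pos.le) hz
    exact Finset.single_le_sum (f := fun j => ‖z j‖ ^ 2) (fun i _ => sq_nonneg _)
      (Finset.mem_univ j)
  have hDopen : IsOpen {z : ℂ | π * ‖z‖ ^ 2 < a'} :=
    isOpen_lt (continuous_const.mul (continuous_norm.pow 2)) continuous_const
  let L : (Fin n → ℂ) → (Fin n → ℂ) := fun z => (fun i => (t i : ℂ)) + lift M z
  have hre : ∀ z i, (L z i).re = (t + M (fun j => (z j).re)) i := fun z i => by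
    simp [L, lift_re]
  have hin : ∀ z ∈ U, t + M (fun j => (cw σ z j).re) ∈ V := by
    intro z hz
    refine ht _ ⟨fun i => (hσb _ (hmemU z hz i)).1, ?_⟩
    calc ∑ i, (cw σ z i).re ≤ ∑ i, (π * ‖z i‖ ^ 2 + δ) :=
          Finset.sum_le_sum fun i _ => (hσb _ (hmemU z hz i)).2.1
      _ = π * (∑ i, ‖z i‖ ^ 2) + n * δ := by
          rw [Finset.sum_add_distrib, Finset.mul_sum]
          simp
      _ < b := by
          have hz' : π * (∑ i, ‖z i‖ ^ 2) < a' := hz
          linarith [hnδ]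
  have hLpos : ∀ z ∈ U, ∀ i, 0 < (L (cw σ z) i).re := fun z hz i => by
    rw [hre]; exact hpos _ (hin z hz) i
  let f : (Fin n → ℂ) → (Fin n → ℂ) := cw polar ∘ L ∘ cw σ
  have hUopen : IsOpen U := by
    refine isOpen_lt (continuous_const.mul ?_) continuous_const
    exact continuous_finsetSum _ fun i _ => ((continuous_apply i).norm.pow 2)
  have hball : ball n a ⊆ U := fun z hz => by
    have hz' : π * ∑ j, ‖z j‖ ^ 2 ≤ a := hz
    exact lt_of_le_of_lt hz' ((le_max_left a 0).trans_lt ha')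
  have hLd : ∀ z, HasFDerivAt L (lift M) z := fun z =>
    (lift M).hasFDerivAt.const_add (fun i => ((t i : ℝ) : ℂ))
  refine ⟨f, ⟨U, hUopen, hball, ?_, ?_, ?_⟩, ?_⟩
  · intro z hz
    refine ContDiffAt.contDiffWithinAt ?_
    have h1 : ContDiffAt ℝ (⊤ : ℕ∞) (cw σ) z := contDiffAt_pi.2 fun i =>
      ((hσs.contDiffAt (hDopen.mem_nhds (hmemU z hz i))).comp z
        (contDiff_apply ℝ ℂ i).contDiffAt)
    have h2 : ContDiffAt ℝ (⊤ : ℕ∞) L (cw σ z) :=
      (contDiff_const.add (lift M).contDiff).contDiffAt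
    have h3 : ContDiffAt ℝ (⊤ : ℕ∞) (cw polar) (L (cw σ z)) := contDiffAt_pi.2 fun i =>
      (contDiffAt_polar (hLpos z hz i)).comp (L (cw σ z)) (contDiff_apply ℝ ℂ i).contDiffAt
    exact h3.comp z (h2.comp z h1)
  · intro z hz z' hz' he
    have hp : ∀ i, (L (cw σ z) i).re = (L (cw σ z') i).re ∧
        ∃ m : ℤ, (L (cw σ z) i).im - (L (cw σ z') i).im = m := fun i =>
      polar_eq (hLpos z hz i) (hLpos z' hz' i) (congrFun he i)
    have hA : (fun j => (cw σ z j).re) = fun j => (cw σ z' j).re := by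
      apply M.injective
      funext i
      have := (hp i).1
      simpa [hre] using this
    have hθ : ∀ i, ∃ m : ℤ, dual M (fun j => (cw σ z j).im - (cw σ z' j).im) i = m := fun i => by
      obtain ⟨m, hm⟩ := (hp i).2
      refine ⟨m, ?_⟩
      rw [← hm]
      rw [show (fun j => (cw σ z j).im - (cw σ z' j).im) =
        (fun j => (cw σ z j).im) - fun j => (cw σ z' j).im from rfl, map_sub]
      simp [L, lift_im]
    funext j
    apply hσi (hmemU z hz j) (hmemU z' hz' j)
    apply Complex.ext (congrFun hA j)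
    obtain ⟨m, hm⟩ := dual_int hM hθ j
    have h1 := hσb _ (hmemU z hz j)
    have h2 := hσb _ (hmemU z' hz' j)
    simp only [cw] at hm
    have hm1 : (m : ℝ) < 1 := by linarith [h1.2.2.2, h2.2.2.1]
    have hm2 : (-1 : ℝ) < m := by linarith [h1.2.2.1, h2.2.2.2]
    have : m = 0 := by
      have h3 : m < 1 := by exact_mod_cast hm1
      have h4 : (-1 : ℤ) < m := by exact_mod_cast hm2
      omega
    rw [this, Int.cast_zero, sub_eq_zero] at hm
    exact hm
  · intro z hz v w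
    have hd1 : ∀ j, DifferentiableAt ℝ σ (z j) := fun j =>
      (hσs.contDiffAt (hDopen.mem_nhds (hmemU z hz j))).differentiableAt (by simp)
    have hd3 : ∀ j, DifferentiableAt ℝ polar (L (cw σ z) j) := fun j =>
      (contDiffAt_polar (hLpos z hz j)).differentiableAt (by simp)
    have hf := ((hasFDerivAt_cw hd3).comp z ((hLd _).comp z (hasFDerivAt_cw hd1)))
    rw [show fderiv ℝ f z = _ from hf.fderiv]
    simp only [ContinuousLinearMap.comp_apply]
    rw [omega_cw (fun j => area_polar (hLpos z hz j)), omega_lift,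
      omega_cw (fun j => hσa _ (hmemU z hz j))]
  · intro z hz
    have hzU := hball hz
    have : (fun i => π * ‖f z i‖ ^ 2) = t + M (fun j => (cw σ z j).re) := by
      funext i
      rw [← hre]
      exact norm_polar _ (hLpos z hzU i)
    rw [this]
    exact hin z hzU

/-- Disjoint integral simplices in the moment simplex give packings. -/
theorem packs_of_slots {n : ℕ} {ι : Type} {R : ℝ} {r b : ι → ℝ} (hr : ∀ i, r i < b i)
    (V : ι → Set (Fin n → ℝ)) (hfit : ∀ i, Fits (b i) (V i))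
    (hsub : ∀ i, V i ⊆ simplex n R) (hdisj : ∀ i j, i ≠ j → Disjoint (V i) (V j)) :
    Packs n R r := by
  have h := fun i => exists_embedding (hr i) (hfit i) (fun x hx => (hsub i hx).1)
  choose f hf hm using h
  refine ⟨f, hf, ?_, ?_⟩
  · rintro i _ ⟨z, hz, rfl⟩
    have := (hsub i (hm i z hz)).2
    show π * ∑ j, ‖f i z j‖ ^ 2 < R
    rwa [Finset.mul_sum]
  · intro i j hij
    rw [Set.disjoint_left]
    rintro _ ⟨z, hz, rfl⟩ ⟨z', hz', he⟩
    refine Set.disjoint_left.1 (hdisj i j hij) (hm i z hz) ?_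
    have := hm j z' hz'
    rwa [he] at this

end Vale.Agent.P209
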