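import Mathlib
import Vale.Agent.P209.Torus

namespace Vale.Agent.P209

open Set Function

variable {m : ℕ}

theorem partialSum_top (x : Fin m → ℝ) : Fin.partialSum x (Fin.last m) = ∑ i, x i := by
  simp [Fin.partialSum, List.take_of_length_le, List.sum_ofFn]

theorem partialSum_first (x : Fin (m + 1) → ℝ) : Fin.partialSum x 1 = x 0 := by
  simpa using Fin.partialSum_succ x 0

/-- Cumulative sums. -/
noncomputable def cum : (Fin (m + 1) → ℝ) ≃ₗ[ℝ] (Fin (m + 1) → ℝ) where
  toFun x i := Fin.partialSum x i.succ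
  invFun y := Fin.cases (y 0) fun i => y i.succ - y i.castSucc
  map_add' x y := by
    funext i
    induction i using Fin.induction with
    | zero => simp [partialSum_first]
    | succ i ih =>
        simp only [Pi.add_apply] at ih ⊢
        rw [Fin.partialSum_succ (x + y), Fin.partialSum_succ x, Fin.partialSum_succ y,
          ← Fin.succ_castSucc, ih, Pi.add_apply]
        ring
  map_smul' c x := by
    funext i
    induction i using Fin.induction with
    | zero => simp [partialSum_first]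
    | succ i ih =>
        simp only [Pi.smul_apply, smul_eq_mul, RingHom.id_apply] at ih ⊢
        rw [Fin.partialSum_succ (c • x), Fin.partialSum_succ x, ← Fin.succ_castSucc, ih,
          Pi.smul_apply, smul_eq_mul]
        ring
  left_inv x := by
    funext i
    induction i using Fin.cases with
    | zero => simp [partialSum_first]
    | succ i =>
        simp only [Fin.cases_succ]
        rw [Fin.partialSum_succ x i.succ, ← Fin.succ_castSucc]
        ring
  right_inv y := by
    funext i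
    induction i using Fin.induction with
    | zero => simp [partialSum_first]
    | succ i ih =>
        simp only at ih ⊢
        rw [Fin.partialSum_succ _ i.succ, ← Fin.succ_castSucc, ih, Fin.cases_succ]
        ring

theorem cum_zero (x : Fin (m + 1) → ℝ) : cum x 0 = x 0 := by
  simp [cum, partialSum_first]

theorem cum_succ (x : Fin (m + 1) → ℝ) (i : Fin m) :
    cum x i.succ = cum x i.castSucc + x i.succ := by
  show Fin.partialSum x i.succ.succ = Fin.partialSum x i.castSucc.succ + x i.succ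
  rw [Fin.partialSum_succ x i.succ, ← Fin.succ_castSucc]

theorem cum_last (x : Fin (m + 1) → ℝ) : cum x (Fin.last m) = ∑ i, x i := by
  show Fin.partialSum x (Fin.last m).succ = _
  rw [Fin.succ_last, partialSum_top]

theorem cum_bounds {b : ℝ} {x : Fin (m + 1) → ℝ} (hx : x ∈ simplex (m + 1) b) :
    StrictMono (cum x) ∧ ∀ i, 0 < cum x i ∧ cum x i < b := by
  have hmono : StrictMono (cum x) := Fin.strictMono_iff_lt_succ.2 fun i => by
    rw [cum_succ]; linarith [hx.1 i.succ]
  refine ⟨hmono, fun i => ⟨?_, ?_⟩⟩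
  · calc (0 : ℝ) < cum x 0 := by rw [cum_zero]; exact hx.1 0
      _ ≤ cum x i := hmono.monotone (Fin.zero_le i)
  · calc cum x i ≤ cum x (Fin.last m) := hmono.monotone (Fin.le_last i)
      _ < b := by rw [cum_last]; exact hx.2

theorem IsIntegral.trans {n : ℕ} {M N : (Fin n → ℝ) ≃ₗ[ℝ] (Fin n → ℝ)} (hM : IsIntegral M)
    (hN : IsIntegral N) : IsIntegral (M.trans N) := fun x hx => hN _ (hM x hx)

theorem isIntegral_cum : IsIntegral (cum : (Fin (m + 1) → ℝ) ≃ₗ[ℝ] _) := by
  intro x hx i
  choose a ha using hx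
  induction i using Fin.induction with
  | zero => exact ⟨a 0, by rw [cum_zero, ha]⟩
  | succ i ih =>
      obtain ⟨c, hc⟩ := ih
      exact ⟨c + a i.succ, by rw [cum_succ, hc, ha]; push_cast; ring⟩

theorem isIntegral_cum_symm : IsIntegral (cum : (Fin (m + 1) → ℝ) ≃ₗ[ℝ] _).symm := by
  intro y hy i
  choose a ha using hy
  induction i using Fin.cases with
  | zero => exact ⟨a 0, by simp [cum, ha]⟩
  | succ i => exact ⟨a i.succ - a i.castSucc, by simp [cum, ha]⟩

/-- The linear part of the tile labelled `w`. -/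
noncomputable def tileLin (w : Fin (m + 1) → ℕ) :
    (Fin (m + 1) → ℝ) ≃ₗ[ℝ] (Fin (m + 1) → ℝ) :=
  cum.trans ((LinearEquiv.funCongrLeft ℝ ℝ (Tuple.sort w)).trans cum.symm)

/-- The translation of the tile labelled `w`. -/
noncomputable def tileShift (b τ : ℝ) (w : Fin (m + 1) → ℕ) : Fin (m + 1) → ℝ :=
  cum.symm fun j => τ + b * w (Tuple.sort w j)

/-- The tile labelled `w`. -/
noncomputable def tile (b τ : ℝ) (w : Fin (m + 1) → ℕ) : Set (Fin (m + 1) → ℝ) :=
  (fun x => tileShift b τ w + tileLin w x) '' simplex (m + 1) b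

theorem isIntegral_tileLin (w : Fin (m + 1) → ℕ) : IsIntegral (tileLin w) :=
  isIntegral_cum.trans (IsIntegral.trans (fun _ hx _ => hx _) isIntegral_cum_symm)

theorem fits_tile (b τ : ℝ) (w : Fin (m + 1) → ℕ) : Fits b (tile b τ w) :=
  ⟨tileLin w, isIntegral_tileLin w, tileShift b τ w, fun x hx => ⟨x, hx, rfl⟩⟩

theorem cum_tile (b τ : ℝ) (w : Fin (m + 1) → ℕ) (x : Fin (m + 1) → ℝ) (j : Fin (m + 1)) :
    cum (tileShift b τ w + tileLin w x) j =
      τ + b * w (Tuple.sort w j) + cum x (Tuple.sort w j) := by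
  simp [tileShift, tileLin]

theorem tile_spec {b τ : ℝ} (hτ : 0 ≤ τ) {w : Fin (m + 1) → ℕ} {z : Fin (m + 1) → ℝ}
    (hz : z ∈ tile b τ w) :
    (∀ i, 0 < z i) ∧ (∀ i, τ + b * w i < ∑ j, z j) ∧
      ∃ i, ∑ j, z j < τ + b * (w i + 1) := by
  obtain ⟨x, hx, rfl⟩ := hz
  obtain ⟨hmono, hbd⟩ := cum_bounds hx
  have hb : 0 < b := (hbd 0).1.trans (hbd 0).2
  have hs := (Tuple.eq_sort_iff (σ := Tuple.sort w) (f := w)).1 rfl
  set y := tileShift b τ w + tileLin w x with hy
  have hc : StrictMono (cum y) := fun i j hij => by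
    rw [hy, cum_tile, cum_tile]
    rcases (hs.1 hij.le).lt_or_eq with h | h
    · have h' : (w (Tuple.sort w i) : ℝ) + 1 ≤ w (Tuple.sort w j) := by
        exact_mod_cast Nat.succ_le_iff.2 h
      nlinarith [(hbd (Tuple.sort w i)).2, (hbd (Tuple.sort w j)).1]
    · have h' := hmono (hs.2 i j hij h)
      have h2 : (w (Tuple.sort w i) : ℝ) = w (Tuple.sort w j) := by exact_mod_cast h
      rw [h2]
      linarith
  have hpos : ∀ i, 0 < cum y i := fun i => by
    rw [hy, cum_tile]
    have : 0 ≤ b * w (Tuple.sort w i) := mul_nonneg hb.le (Nat.cast_nonneg _)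
    linarith [(hbd (Tuple.sort w i)).1]
  refine ⟨fun i => ?_, fun i => ?_, ?_⟩
  · change 0 < y i
    induction i using Fin.cases with
    | zero => rw [← cum_zero y]; exact hpos 0
    | succ i =>
        have := hc (Fin.castSucc_lt_succ (i := i))
        rw [cum_succ] at this
        linarith
  · change _ < ∑ j, y j
    rw [← cum_last y]
    refine lt_of_lt_of_le ?_ (hc.monotone (Fin.le_last ((Tuple.sort w).symm i)))
    rw [hy, cum_tile, Equiv.apply_symm_apply]
    linarith [(hbd i).1]
  · refine ⟨Tuple.sort w (Fin.last m), ?_⟩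
    change ∑ j, y j < _
    rw [← cum_last y, hy, cum_tile]
    linarith [(hbd (Tuple.sort w (Fin.last m))).2]

theorem tile_disjoint (b τ : ℝ) {w w' : Fin (m + 1) → ℕ} (h : w ≠ w') :
    Disjoint (tile b τ w) (tile b τ w') := by
  rw [Set.disjoint_left]
  rintro _ ⟨x, hx, rfl⟩ ⟨x', hx', he⟩
  apply h
  obtain ⟨hm, hb⟩ := cum_bounds hx
  obtain ⟨hm', hb'⟩ := cum_bounds hx'
  have hb0 : 0 < b := (hb 0).1.trans (hb 0).2
  have key : ∀ i, ∃ i', w i = w' i' ∧ cum x i = cum x' i' := fun i => by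
    obtain ⟨j, rfl⟩ := (Tuple.sort w).surjective i
    have e : cum _ j = cum _ j := congrArg (fun y => cum y j) he
    rw [cum_tile, cum_tile] at e
    refine ⟨Tuple.sort w' j, ?_⟩
    set p := Tuple.sort w j
    set p' := Tuple.sort w' j
    have h1 : (w p : ℝ) < w' p' + 1 := by nlinarith [(hb p).1, (hb' p').2]
    have h2 : (w' p' : ℝ) < w p + 1 := by nlinarith [(hb' p').1, (hb p).2]
    have h3 : w p < w' p' + 1 := by exact_mod_cast h1
    have h4 : w' p' < w p + 1 := by exact_mod_cast h2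
    have hw : w p = w' p' := by omega
    refine ⟨hw, ?_⟩
    rw [hw] at e
    linarith
  choose g hg hg' using key
  have hgm : StrictMono g := fun i j hij => hm'.lt_iff_lt.1 (by
    rw [← hg', ← hg']; exact hm hij)
  have hid : g = id := StrictMono.eq_id hgm
  funext i
  rw [hg i, hid]
  rfl

/-- Every slot subdivides into `2 ^ (m + 1)` slots of half the size. -/
theorem Fits.halve {b : ℝ} {V : Set (Fin (m + 1) → ℝ)} (hV : Fits b V) :
    ∃ W : (Fin (m + 1) → Fin 2) → Set (Fin (m + 1) → ℝ),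
      (∀ w, Fits (b / 2) (W w) ∧ W w ⊆ V) ∧ ∀ w w', w ≠ w' → Disjoint (W w) (W w') := by
  obtain ⟨M, hM, t, ht⟩ := hV
  let g : (Fin (m + 1) → ℝ) → (Fin (m + 1) → ℝ) := fun x => t + M x
  have hg : Injective g := fun x y h => M.injective (add_left_cancel h)
  refine ⟨fun w => g '' tile (b / 2) 0 (fun i => (w i).val), fun w => ⟨?_, ?_⟩, ?_⟩
  · refine ⟨(tileLin fun i => (w i).val).trans M, (isIntegral_tileLin _).trans hM,
      g (tileShift (b / 2) 0 fun i => (w i).val), fun x hx => ⟨_, ⟨x, hx, rfl⟩, ?_⟩⟩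
    simp [g, map_add, add_assoc]
  · rintro _ ⟨z, hz, rfl⟩
    obtain ⟨x, hx, -⟩ := id hz
    have hb : 0 < b / 2 := ((cum_bounds hx).2 0).1.trans ((cum_bounds hx).2 0).2
    obtain ⟨h1, -, i, h2⟩ := tile_spec le_rfl hz
    refine ht z ⟨h1, ?_⟩
    have : ((w i).val : ℝ) ≤ 1 := by exact_mod_cast Nat.lt_succ_iff.1 (w i).isLt
    nlinarith
  · intro w w' hne
    exact (Set.disjoint_image_iff hg).2 (tile_disjoint _ _ fun h => hne
      (funext fun i => Fin.ext (congrFun h i)))

/-- Labels of the tiles in the `q`-th shell. -/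
abbrev Shell (m q : ℕ) := {w : Fin (m + 1) → Fin (q + 1) // ∃ i, w i = Fin.last q}

theorem card_shell (m q : ℕ) : Fintype.card (Shell m q) = (q + 1) ^ (m + 1) - q ^ (m + 1) := by
  have e : {w : Fin (m + 1) → Fin (q + 1) // ¬ ∃ i, w i = Fin.last q} ≃
      (Fin (m + 1) → Fin q) :=
    { toFun := fun w i => (w.1 i).castPred fun h => w.2 ⟨i, h⟩
      invFun := fun v => ⟨fun i => (v i).castSucc, fun ⟨i, h⟩ => (Fin.castSucc_lt_last (v i)).ne h⟩
      left_inv := fun w => by ext i; simp
      right_inv := fun v => by funext i; simp }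
  have h := Fintype.card_congr
    (Equiv.sumCompl fun w : Fin (m + 1) → Fin (q + 1) => ∃ i, w i = Fin.last q)
  simp only [Fintype.card_sum, Fintype.card_congr e, Fintype.card_fun, Fintype.card_fin] at h
  rw [← h]
  simp

theorem shell_slots {R a b : ℝ} (hb : 0 ≤ b) (hab : a + b = R) {q : ℕ} (hq : q * b ≤ a) :
    ∃ V : Option (Shell m q) → Set (Fin (m + 1) → ℝ),
      Fits a (V none) ∧ (∀ w, Fits b (V (some w))) ∧ (∀ o, V o ⊆ simplex (m + 1) R) ∧
      ∀ o o', o ≠ o' → Disjoint (V o) (V o') := by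
  let τ := a - q * b
  have hτ : 0 ≤ τ := sub_nonneg.2 hq
  let V : Option (Shell m q) → Set (Fin (m + 1) → ℝ) := fun o => match o with
    | none => simplex (m + 1) a
    | some w => tile b τ fun i => (w.1 i).val
  have hspec : ∀ w : Shell m q, ∀ z ∈ V (some w),
      z ∈ simplex (m + 1) R ∧ a < ∑ j, z j := by
    intro w z hz
    obtain ⟨h1, h2, i, h3⟩ := tile_spec hτ hz
    obtain ⟨i0, hi0⟩ := w.2
    have e : ((w.1 i0).val : ℝ) = q := by rw [hi0]; simp
    have hle : ((w.1 i).val : ℝ) ≤ q := by exact_mod_cast Nat.lt_succ_iff.1 (w.1 i).isLt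
    refine ⟨⟨h1, ?_⟩, ?_⟩
    · simp only [τ] at h3
      nlinarith [mul_le_mul_of_nonneg_left hle hb]
    · have := h2 i0
      rw [e] at this
      simp only [τ] at this
      linarith
  refine ⟨V, ?_, fun w => fits_tile _ _ _, ?_, ?_⟩
  · exact ⟨LinearEquiv.refl ℝ _, fun _ hx => hx, 0, fun x hx => by simpa [V] using hx⟩
  · rintro (_ | w)
    · exact fun z hz => ⟨hz.1, by linarith [show ∑ i, z i < a from hz.2]⟩
    · exact fun z hz => (hspec w z hz).1
  · rintro (_ | w) (_ | w') hne
    · exact absurd rfl hne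
    · exact Set.disjoint_left.2 fun z hz hz' =>
        lt_asymm (show ∑ i, z i < a from hz.2) (hspec w' z hz').2
    · exact Set.disjoint_left.2 fun z hz hz' =>
        lt_asymm (show ∑ i, z i < a from hz'.2) (hspec w z hz).2
    · refine tile_disjoint _ _ fun h => hne (congrArg some (Subtype.ext ?_))
      exact funext fun i => Fin.ext (congrFun h i)

theorem half_slots (m : ℕ) (R : ℝ) :
    ∃ V : (Fin (m + 1) → Fin 2) → Set (Fin (m + 1) → ℝ),
      (∀ w, Fits (R / 2) (V w) ∧ V w ⊆ simplex (m + 1) R) ∧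
      ∀ w w', w ≠ w' → Disjoint (V w) (V w') :=
  Fits.halve ⟨LinearEquiv.refl ℝ _, fun _ hx => hx, 0, fun x hx => by simpa using hx⟩

end Vale.Agent.P209
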