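import Mathlib
import Vale.Agent.P209.Tiles

namespace Vale.Agent.P209

open Set Function Filter Topology

variable {m : ℕ}

/-- Dyadic allocation of slots. -/
theorem alloc (N : ℕ) : ∀ (ι : Type) [Fintype ι] (b : ℝ) (V : ι → Set (Fin (m + 1) → ℝ)),
    (∀ i, Fits b (V i)) → (∀ i i', i ≠ i' → Disjoint (V i) (V i')) →
    ∀ (κ : Type) [Fintype κ] (l : κ → ℕ), (∀ k, l k ≤ N) →
    (∑ k, (2 ^ (m + 1)) ^ (N - l k) ≤ Fintype.card ι * (2 ^ (m + 1)) ^ N) →
    ∃ W : κ → Set (Fin (m + 1) → ℝ), (∀ k, Fits (b / 2 ^ l k) (W k)) ∧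
      (∀ k, ∃ i, W k ⊆ V i) ∧ ∀ k k', k ≠ k' → Disjoint (W k) (W k') := by
  classical
  induction N with
  | zero =>
      intro ι _ b V hfit hdis κ _ l hl hcount
      obtain ⟨e⟩ := Function.Embedding.nonempty_of_card_le (α := κ) (β := ι) (by simpa using hcount)
      refine ⟨fun k => V (e k), fun k => ?_, fun k => ⟨e k, subset_rfl⟩,
        fun k k' hne => hdis _ _ fun h => hne (e.injective h)⟩
      rw [Nat.le_zero.1 (hl k), pow_zero, div_one]
      exact hfit _
  | succ N ih =>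
      intro ι _ b V hfit hdis κ _ l hl hcount
      set P := 2 ^ (m + 1) with hP
      have hP0 : 0 < P := by positivity
      have hsplit := Finset.sum_filter_add_sum_filter_not Finset.univ (fun k => l k = 0)
        (fun k => P ^ (N + 1 - l k))
      have hz : ∑ k ∈ Finset.univ.filter (fun k => l k = 0), P ^ (N + 1 - l k) =
          Fintype.card {k // l k = 0} * P ^ (N + 1) := by
        rw [Finset.sum_congr rfl (fun k hk => by rw [(Finset.mem_filter.1 hk).2, Nat.sub_zero]),
          Finset.sum_const, smul_eq_mul, Fintype.card_subtype]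
      have hc0 : Fintype.card {k // l k = 0} ≤ Fintype.card ι := by
        refine Nat.le_of_mul_le_mul_right ?_ (pow_pos hP0 (N + 1))
        omega
      obtain ⟨e⟩ := Function.Embedding.nonempty_of_card_le hc0
      choose W₀ hW₀ hW₀d using fun i => (hfit i).halve
      let ι' := {i // i ∉ Set.range e} × (Fin (m + 1) → Fin 2)
      have hcard : Fintype.card ι' = (Fintype.card ι - Fintype.card {k // l k = 0}) * P := by
        rw [Fintype.card_prod, Fintype.card_subtype_compl]
        congr 1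
        · exact congrArg _ (Set.card_range_of_injective e.injective)
        · simp [hP]
      have hcount' : ∑ k : {k // ¬ l k = 0}, P ^ (N - (l k - 1)) ≤
          Fintype.card ι' * P ^ N := by
        rw [hcard, mul_assoc, ← pow_succ', Nat.sub_mul]
        have : ∑ k : {k // ¬ l k = 0}, P ^ (N - (l k - 1)) =
            ∑ k ∈ Finset.univ.filter (fun k => ¬ l k = 0), P ^ (N + 1 - l k) := by
          rw [Finset.sum_subtype (F := inferInstance) (p := fun k => ¬ l k = 0) _ (by simp)]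
          exact Finset.sum_congr rfl fun k _ => by
            congr 1; have := k.2; omega
        omega
      obtain ⟨W, hW, hWsub, hWdis⟩ := ih ι' (b / 2) (fun p => W₀ p.1 p.2)
        (fun p => (hW₀ p.1 p.2).1)
        (fun p p' hne => by
          by_cases h : p.1.1 = p'.1.1
          · obtain ⟨⟨i, hi⟩, w⟩ := p
            obtain ⟨⟨i', hi'⟩, w'⟩ := p'
            simp only at h
            subst h
            exact hW₀d i w w' fun hw => hne (by rw [hw])
          · exact (hdis _ _ h).mono (hW₀ _ _).2 (hW₀ _ _).2)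
        {k // ¬ l k = 0} (fun k => l k - 1) (fun k => by have := hl k; have := k.2; omega) hcount'
      have hWV : ∀ k, ∃ i, i ∉ Set.range e ∧ W k ⊆ V i := fun k => by
        obtain ⟨p, hp⟩ := hWsub k
        exact ⟨p.1, p.1.2, hp.trans (hW₀ _ _).2⟩
      refine ⟨fun k => if h : l k = 0 then V (e ⟨k, h⟩) else W ⟨k, h⟩, fun k => ?_, fun k => ?_,
        fun k k' hne => ?_⟩
      · by_cases h : l k = 0
        · simp only [dif_pos h]; rw [h, pow_zero, div_one]; exact hfit _
        · simp only [dif_neg h]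
          convert! hW ⟨k, h⟩ using 1
          rw [div_div, ← pow_succ', Nat.sub_add_cancel (Nat.one_le_iff_ne_zero.2 h)]
      · by_cases h : l k = 0
        · simp only [dif_pos h]; exact ⟨_, subset_rfl⟩
        · simp only [dif_neg h]
          obtain ⟨i, -, hi⟩ := hWV ⟨k, h⟩
          exact ⟨i, hi⟩
      · by_cases h : l k = 0 <;> by_cases h' : l k' = 0 <;> simp only [h, h', dite_true, dite_false]
        · exact hdis _ _ fun he => hne (congrArg Subtype.val (e.injective he))
        · obtain ⟨i, hi, hsub⟩ := hWV ⟨k', h'⟩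
          exact (hdis _ _ fun he => hi ⟨_, he⟩).mono_right hsub
        · obtain ⟨i, hi, hsub⟩ := hWV ⟨k, h⟩
          exact (hdis _ _ fun he => hi ⟨_, he.symm⟩).mono_left hsub
        · exact hWdis _ _ fun he => hne (congrArg Subtype.val he)

variable {k : ℕ} {R : ℝ} {r : Fin k → ℝ}

theorem Packs.of_rest {a b : ℝ} {i₀ : Fin k} (ha : r i₀ < a) (hb : ∀ j, j ≠ i₀ → r j < b)
    (A : Set (Fin (m + 1) → ℝ)) (hA : Fits a A) (hAR : A ⊆ simplex (m + 1) R)
    (W : {j // j ≠ i₀} → Set (Fin (m + 1) → ℝ)) (bw : {j // j ≠ i₀} → ℝ)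
    (hbw : ∀ j : {j // j ≠ i₀}, r j < bw j) (hW : ∀ j, Fits (bw j) (W j))
    (hWR : ∀ j, W j ⊆ simplex (m + 1) R) (hAW : ∀ j, Disjoint A (W j))
    (hWW : ∀ j j', j ≠ j' → Disjoint (W j) (W j')) : Packs (m + 1) R r := by
  refine packs_of_slots (b := fun i => if h : i = i₀ then a else bw ⟨i, h⟩) (fun i => ?_)
    (fun i => if h : i = i₀ then A else W ⟨i, h⟩) (fun i => ?_) (fun i => ?_)
    (fun i j hij => ?_)
  · by_cases h : i = i₀
    · subst h; simpa using ha
    · simpa [h] using hbw ⟨i, h⟩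
  · by_cases h : i = i₀
    · subst h; simpa using hA
    · simpa [h] using hW ⟨i, h⟩
  · by_cases h : i = i₀
    · subst h; simpa using hAR
    · simpa [h] using hWR ⟨i, h⟩
  · by_cases h : i = i₀ <;> by_cases h' : j = i₀
    · exact absurd (h.trans h'.symm) hij
    · simpa [h, h'] using hAW ⟨j, h'⟩
    · simpa [h, h'] using (hAW ⟨i, h⟩).symm
    · simpa [h, h'] using hWW ⟨i, h⟩ ⟨j, h'⟩ fun he => hij (congrArg Subtype.val he)

/-- A few balls smaller than the residual capacity, outside one big ball. -/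
theorem packs_shell {a b : ℝ} (hb0 : 0 ≤ b) (hab : a + b = R) {q : ℕ} (hq : q * b ≤ a)
    {i₀ : Fin k} (ha : r i₀ < a) (hb : ∀ j, j ≠ i₀ → r j < b)
    (hk : k ≤ 1 + ((q + 1) ^ (m + 1) - q ^ (m + 1))) : Packs (m + 1) R r := by
  obtain ⟨V, hV0, hV, hVR, hVd⟩ := shell_slots (m := m) hb0 hab hq
  have hcard : Fintype.card {j // j ≠ i₀} ≤ Fintype.card (Shell m q) := by
    rw [card_shell]
    simp [Fintype.card_subtype_compl]
    omega
  obtain ⟨e⟩ := Function.Embedding.nonempty_of_card_le hcard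
  exact Packs.of_rest ha hb _ hV0 (hVR none) (fun j => V (some (e j))) (fun _ => b)
    (fun j => hb j.1 j.2) (fun j => hV _) (fun j => hVR _) (fun j => hVd _ _ (by simp))
    (fun j j' hne => hVd _ _ fun h => hne (e.injective (Option.some_injective _ h)))

theorem exists_level {b x : ℝ} (hx : 0 < x) (hxb : x < b) :
    ∃ l : ℕ, x < b / 2 ^ l ∧ b / 2 ^ l ≤ 2 * x := by
  classical
  have hb : 0 < b := hx.trans hxb
  have he : ∃ l : ℕ, b / 2 ^ l ≤ 2 * x := by
    obtain ⟨l, hl⟩ := pow_unbounded_of_one_lt (b / (2 * x)) (show (1 : ℝ) < 2 by norm_num)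
    refine ⟨l, ?_⟩
    rw [div_le_iff₀ (by positivity)]
    rw [div_lt_iff₀ (by positivity)] at hl
    nlinarith
  refine ⟨Nat.find he, ?_, Nat.find_spec he⟩
  rcases Nat.eq_zero_or_pos (Nat.find he) with h | h
  · simpa [h] using hxb
  · obtain ⟨l, hl⟩ := Nat.exists_eq_succ_of_ne_zero h.ne'
    have := not_le.1 (Nat.find_min he (m := l) (by omega))
    rw [hl, pow_succ, ← div_div, lt_div_iff₀ two_pos]
    linarith

/-- Balls of small total volume fit into a family of slots. -/
theorem small_slots {κ ι : Type} [Fintype κ] [Fintype ι] {b : ℝ}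
    {V : ι → Set (Fin (m + 1) → ℝ)} (hfit : ∀ i, Fits b (V i))
    (hdis : ∀ i i', i ≠ i' → Disjoint (V i) (V i')) {x : κ → ℝ} (hx : ∀ j, 0 < x j)
    (hxb : ∀ j, x j < b) (hvol : ∑ j, (2 * x j / b) ^ (m + 1) ≤ Fintype.card ι) :
    ∃ (bw : κ → ℝ) (W : κ → Set (Fin (m + 1) → ℝ)), (∀ j, x j < bw j) ∧
      (∀ j, Fits (bw j) (W j)) ∧ (∀ j, ∃ i, W j ⊆ V i) ∧
      ∀ j j', j ≠ j' → Disjoint (W j) (W j') := by
  choose l hl hl' using fun j => exists_level (hx j) (hxb j)
  set N := Finset.univ.sup l with hN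
  have hlN : ∀ j, l j ≤ N := fun j => Finset.le_sup (Finset.mem_univ j)
  have hcount : ∑ j, (2 ^ (m + 1)) ^ (N - l j) ≤ Fintype.card ι * (2 ^ (m + 1)) ^ N := by
    have h : ((∑ j, (2 ^ (m + 1)) ^ (N - l j) : ℕ) : ℝ) ≤
        ((Fintype.card ι * (2 ^ (m + 1)) ^ N : ℕ) : ℝ) := by
      push_cast
      calc ∑ j, ((2 : ℝ) ^ (m + 1)) ^ (N - l j)
          ≤ ∑ j, (2 * x j / b) ^ (m + 1) * ((2 : ℝ) ^ (m + 1)) ^ N :=
            Finset.sum_le_sum fun j _ => by
              have hb : 0 < b := (hx j).trans (hxb j)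
              have h1 : (1 : ℝ) ≤ 2 * x j / b * 2 ^ l j := by
                have := hl' j
                rw [div_le_iff₀ (by positivity)] at this
                rw [div_mul_eq_mul_div, le_div_iff₀ hb]
                linarith
              calc ((2 : ℝ) ^ (m + 1)) ^ (N - l j)
                  = 1 ^ (m + 1) * ((2 : ℝ) ^ (m + 1)) ^ (N - l j) := by simp
                _ ≤ (2 * x j / b * 2 ^ l j) ^ (m + 1) * ((2 : ℝ) ^ (m + 1)) ^ (N - l j) :=
                    mul_le_mul_of_nonneg_right (pow_le_pow_left₀ zero_le_one h1 _) (by positivity)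
                _ = (2 * x j / b) ^ (m + 1) * ((2 : ℝ) ^ (m + 1)) ^ (l j + (N - l j)) := by
                    rw [mul_pow, pow_add ((2 : ℝ) ^ (m + 1)), mul_assoc, ← pow_mul, mul_comm (l j) (m + 1), pow_mul]
                _ = _ := by rw [Nat.add_sub_cancel' (hlN j)]
        _ = (∑ j, (2 * x j / b) ^ (m + 1)) * ((2 : ℝ) ^ (m + 1)) ^ N := by rw [Finset.sum_mul]
        _ ≤ _ := mul_le_mul_of_nonneg_right hvol (by positivity)
    exact_mod_cast h
  obtain ⟨W, hW, hWV, hWd⟩ := alloc N ι b V hfit hdis κ l hlN hcount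
  exact ⟨fun j => b / 2 ^ l j, W, hl, hW, hWV, hWd⟩

theorem exists_bigger (hpair : ∀ i j, i ≠ j → r i + r j < R) (i₀ : Fin k) (hi : r i₀ < R)
    {ε : ℝ} (hε : 0 < ε) :
    ∃ a, r i₀ < a ∧ a < R ∧ a < r i₀ + ε ∧ ∀ j, j ≠ i₀ → r j < R - a := by
  have h : ∀ᶠ a in 𝓝[>] r i₀, a < R ∧ a < r i₀ + ε ∧ ∀ j, j ≠ i₀ → r j < R - a := by
    refine (eventually_nhdsWithin_of_eventually_nhds (eventually_lt_nhds hi)).and
      ((eventually_nhdsWithin_of_eventually_nhds
        (eventually_lt_nhds (by linarith))).and ?_)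
    refine eventually_all.2 fun j => ?_
    by_cases hj : j = i₀
    · exact Eventually.of_forall fun _ h => absurd hj h
    · filter_upwards [eventually_nhdsWithin_of_eventually_nhds
        (eventually_lt_nhds (show r i₀ < R - r j by linarith [hpair j i₀ hj]))] with a ha _
      linarith
  obtain ⟨a, ha, ha'⟩ := ((eventually_mem_nhdsWithin).and h).exists
  exact ⟨a, ha, ha'⟩

theorem pow_sub_pow_le_mul {a R : ℝ} (ha : 0 ≤ a) (haR : a ≤ R) :
    ∀ n : ℕ, R ^ (n + 1) - a ^ (n + 1) ≤ (n + 1) * (R - a) * R ^ n := by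
  intro n
  induction n with
  | zero => simp
  | succ n ih =>
      have h1 : a ^ (n + 1) ≤ R ^ (n + 1) := pow_le_pow_left₀ ha haR _
      calc R ^ (n + 1 + 1) - a ^ (n + 1 + 1)
          = R * (R ^ (n + 1) - a ^ (n + 1)) + (R - a) * a ^ (n + 1) := by ring
        _ ≤ R * ((n + 1) * (R - a) * R ^ n) + (R - a) * R ^ (n + 1) :=
            add_le_add (mul_le_mul_of_nonneg_left ih (ha.trans haR))
              (mul_le_mul_of_nonneg_left h1 (sub_nonneg.2 haR))
        _ = _ := by push_cast; ring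

/-- The pairwise condition is sufficient up to a dimensional constant in the residual volume. -/
theorem packs_volume (hr : ∀ i, 0 < r i) (hpair : ∀ i j, i ≠ j → r i + r j < R) (i₀ : Fin k)
    (hi : r i₀ < R)
    (hvol : (m + 1) * (4 : ℝ) ^ (m + 1) * ∑ j ∈ Finset.univ.erase i₀, r j ^ (m + 1) ≤
      R ^ (m + 1) - r i₀ ^ (m + 1)) : Packs (m + 1) R r := by
  classical
  have hR : 0 < R := (hr i₀).trans hi
  have hsum : ∀ f : Fin k → ℝ, ∑ j : {j // j ≠ i₀}, f j = ∑ j ∈ Finset.univ.erase i₀, f j :=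
    fun f => (Finset.sum_subtype _ (fun x => by simp) f).symm
  set S := ∑ j ∈ Finset.univ.erase i₀, r j ^ (m + 1) with hS
  have hS0 : 0 ≤ S := Finset.sum_nonneg fun j _ => (pow_pos (hr j) _).le
  have hscale : ∀ b : ℝ, ∑ j : {j // j ≠ i₀}, (2 * r j / b) ^ (m + 1) =
      2 ^ (m + 1) / b ^ (m + 1) * S := fun b => by
    rw [hS, Finset.mul_sum, hsum (fun j => (2 * r j / b) ^ (m + 1))]
    refine Finset.sum_congr rfl fun j _ => ?_
    rw [div_pow, mul_pow]
    ring
  by_cases hbig : r i₀ < R / 2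
  · obtain ⟨V, hV, hVd⟩ := half_slots m R
    let w₀ : Fin (m + 1) → Fin 2 := fun _ => 0
    have hS4 : (4 : ℝ) ^ (m + 1) * S ≤ R ^ (m + 1) := by
      have h2 := pow_pos (hr i₀) (m + 1)
      have h3 : (4 : ℝ) ^ (m + 1) * S ≤ (m + 1) * ((4 : ℝ) ^ (m + 1) * S) :=
        le_mul_of_one_le_left (by positivity) (by simp)
      linarith
    have hx : ∀ j : {j // j ≠ i₀}, r j < R / 2 := fun j => by
      refine lt_of_pow_lt_pow_left₀ (m + 1) (by positivity) ?_
      have h1 : r j ^ (m + 1) ≤ S := Finset.single_le_sum (f := fun j => r j ^ (m + 1))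
        (fun i _ => (pow_pos (hr i) _).le) (by simp [j.2])
      have h4 : (2 : ℝ) ^ (m + 1) < 4 ^ (m + 1) :=
        pow_lt_pow_left₀ (by norm_num) (by norm_num) (by simp)
      rw [div_pow, lt_div_iff₀ (by positivity)]
      have := pow_pos (hr (j : Fin k)) (m + 1)
      nlinarith [mul_lt_mul_of_pos_left h4 this,
        mul_le_mul_of_nonneg_left h1 (show (0 : ℝ) ≤ 4 ^ (m + 1) by positivity)]
    obtain ⟨bw, W, hbw, hW, hWV, hWW⟩ := small_slots (x := fun j : {j // j ≠ i₀} => r j)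
      (V := fun w : {w // w ≠ w₀} => V w.1) (fun w => (hV w).1)
      (fun w w' h => hVd _ _ fun he => h (Subtype.ext he)) (fun j => hr j) hx (by
        rw [hscale]
        have hc : (1 : ℝ) ≤ (Fintype.card {w : Fin (m + 1) → Fin 2 // w ≠ w₀} : ℝ) := by
          rw [Nat.one_le_cast, Nat.one_le_iff_ne_zero, ← Nat.pos_iff_ne_zero, Fintype.card_pos_iff]
          exact ⟨⟨fun _ => 1, fun h => by simpa [w₀] using congrFun h 0⟩⟩
        refine le_trans ?_ hc
        rw [div_pow, div_div_eq_mul_div, ← mul_pow, show (2 : ℝ) * 2 = 4 by norm_num,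
          div_mul_eq_mul_div, div_le_one (by positivity)]
        exact hS4)
    refine Packs.of_rest (a := R / 2) (b := R / 2) hbig (fun j hj => hx ⟨j, hj⟩) (V w₀) (hV w₀).1
      (hV w₀).2 W bw hbw hW (fun j => ?_) (fun j => ?_) hWW
    · obtain ⟨w, hw⟩ := hWV j
      exact hw.trans (hV w.1).2
    · obtain ⟨w, hw⟩ := hWV j
      exact (hVd _ _ (Ne.symm w.2)).mono_right hw
  · rw [not_lt] at hbig
    have hgap : 0 < R ^ (m + 1) - r i₀ ^ (m + 1) :=
      sub_pos.2 (pow_lt_pow_left₀ hi (hr i₀).le (by simp))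
    obtain ⟨ε, hε, hεc⟩ := Metric.continuousAt_iff.1
      ((continuous_pow (m + 1) : Continuous fun x : ℝ => x ^ (m + 1)).continuousAt (x := r i₀))
      ((R ^ (m + 1) - r i₀ ^ (m + 1)) / 2) (by positivity)
    obtain ⟨a, ha, haR, haε, hab⟩ := exists_bigger hpair i₀ hi hε
    have hd := hεc (x := a) (by rw [Real.dist_eq, abs_of_pos (sub_pos.2 ha)]; linarith)
    rw [Real.dist_eq, abs_lt] at hd
    set b := R - a with hb
    have hb0 : 0 < b := sub_pos.2 haR
    set q := ⌊a / b⌋₊ with hq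
    have hqb : q * b ≤ a := (le_div_iff₀ hb0).1 (Nat.floor_le (div_nonneg (by linarith) hb0.le))
    have hq1 : (1 : ℝ) ≤ q := by
      rw [Nat.one_le_cast, hq, Nat.le_floor_iff' one_ne_zero, Nat.cast_one, le_div_iff₀ hb0]
      linarith
    have hqR : R ≤ 2 * ((q : ℝ) + 1) * b := by
      have := (div_lt_iff₀ hb0).1 (Nat.lt_floor_add_one (a / b))
      rw [← hq] at this
      nlinarith
    obtain ⟨V, hV0, hV, hVR, hVdd⟩ := shell_slots (m := m) (R := R) (a := a) hb0.le (by linarith) hqb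
    have hcnt : ((q : ℝ) + 1) ^ m ≤ (Fintype.card (Shell m q) : ℝ) := by
      rw [card_shell, Nat.cast_sub (Nat.pow_le_pow_left (Nat.le_succ q) _)]
      push_cast
      have h1 : (q : ℝ) ^ m ≤ ((q : ℝ) + 1) ^ m := pow_le_pow_left₀ (by positivity) (by linarith) _
      calc ((q : ℝ) + 1) ^ m = ((q : ℝ) + 1) ^ m * ((q : ℝ) + 1) - ((q : ℝ) + 1) ^ m * q := by ring
        _ ≤ ((q : ℝ) + 1) ^ (m + 1) - (q : ℝ) ^ (m + 1) := by
          rw [pow_succ, pow_succ]
          nlinarith [mul_le_mul_of_nonneg_right h1 (show (0 : ℝ) ≤ q by linarith)]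
    obtain ⟨bw, W, hbw, hW, hWV, hWW⟩ := small_slots (x := fun j : {j // j ≠ i₀} => r j)
      (V := fun w => V (some w)) hV (fun w w' h => hVdd _ _ fun he => h (Option.some_injective _ he))
      (fun j => hr j) (fun j => hab j j.2) (by
        rw [hscale, div_mul_eq_mul_div, div_le_iff₀ (by positivity)]
        have h2 := pow_sub_pow_le_mul (R := R) (a := a) (by linarith) haR.le m
        have h3 : R ^ m ≤ (2 * ((q : ℝ) + 1) * b) ^ m := pow_le_pow_left₀ hR.le hqR _
        rw [mul_pow, mul_pow] at h3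
        have h4 : (m + 1 : ℝ) * ((2 : ℝ) ^ (m + 1)) ^ 2 * S ≤ 2 * ((m + 1) * b *
            (2 ^ m * ((q : ℝ) + 1) ^ m * b ^ m)) := by
          rw [← pow_mul, mul_comm (m + 1) 2, pow_mul, show (2 : ℝ) ^ 2 = 4 by norm_num]
          have := mul_le_mul_of_nonneg_left h3 (show 0 ≤ (m + 1 : ℝ) * b by positivity)
          linarith
        have h5 : (2 : ℝ) ^ (m + 1) * S ≤ ((q : ℝ) + 1) ^ m * b ^ (m + 1) := by
          refine le_of_mul_le_mul_left ?_ (show 0 < (m + 1 : ℝ) * 2 ^ (m + 1) by positivity)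
          rw [pow_succ b, pow_succ (2 : ℝ)] at *
          linarith
        exact h5.trans (mul_le_mul_of_nonneg_right hcnt (by positivity)))
    refine Packs.of_rest ha hab _ hV0 (hVR none) W bw hbw hW (fun j => ?_) (fun j => ?_) hWW
    · obtain ⟨w, hw⟩ := hWV j
      exact hw.trans (hVR _)
    · obtain ⟨w, hw⟩ := hWV j
      exact (hVdd none (some w) (by simp)).mono_right hw

/-- Up to `2 ^ (m + 1)` balls. -/
theorem packs_few (hlt : ∀ i, r i < R)
    (hpair : ∀ i j, i ≠ j → r i + r j < R) (hk : k ≤ 2 ^ (m + 1)) : Packs (m + 1) R r := by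
  by_cases h : ∃ i, R / 2 ≤ r i
  · obtain ⟨i, hi⟩ := h
    obtain ⟨a, ha, haR, -, hab⟩ := exists_bigger hpair i (hlt i) one_pos
    refine packs_shell (q := 1) (sub_nonneg.2 haR.le) (by ring) ?_ ha hab ?_
    · push_cast; linarith
    · rw [one_pow]
      have := Nat.one_le_two_pow (n := m + 1)
      simp only [show (1 : ℕ) + 1 = 2 from rfl]
      omega
  · simp only [not_exists, not_le] at h
    obtain ⟨V, hV, hVd⟩ := half_slots m R
    obtain ⟨e⟩ := Function.Embedding.nonempty_of_card_le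
      (α := Fin k) (β := Fin (m + 1) → Fin 2) (by simpa using hk)
    exact packs_of_slots h (fun i => V (e i)) (fun i => (hV _).1) (fun i => (hV _).2)
      (fun i j hij => hVd _ _ fun he => hij (e.injective he))

theorem packs_ratio (hpair : ∀ i j, i ≠ j → r i + r j < R) {i₀ : Fin k} (hi : r i₀ < R)
    {q : ℕ} (hq : q * (R - r i₀) ≤ r i₀) (hk : k ≤ 1 + ((q + 1) ^ (m + 1) - q ^ (m + 1))) :
    Packs (m + 1) R r := by
  obtain ⟨a, ha, haR, -, hab⟩ := exists_bigger hpair i₀ hi one_pos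
  refine packs_shell (sub_nonneg.2 haR.le) (by ring) ?_ ha hab hk
  have : (q : ℝ) * (R - a) ≤ q * (R - r i₀) :=
    mul_le_mul_of_nonneg_left (by linarith) (Nat.cast_nonneg _)
  linarith

end Vale.Agent.P209
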