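import Mathlib
import Vale.Agent.P209.Packing

namespace Vale.Agent.P209

open Set Function

variable {m : ℕ}

/-- Subdivision of a slot of size `c * h` into `c ^ (m + 1)` cells, any corner of which is a slot. -/
theorem Fits.subdivide {h : ℝ} {c p : ℕ} (hh : 0 ≤ h) (hp : p ≤ c)
    {V : Set (Fin (m + 1) → ℝ)} (hV : Fits (c * h) V) :
    ∃ (A : Set (Fin (m + 1) → ℝ)) (W : (Fin (m + 1) → Fin c) → Set (Fin (m + 1) → ℝ)),
      Fits (p * h) A ∧ A ⊆ V ∧ (∀ w, Fits h (W w) ∧ W w ⊆ V) ∧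
      (∀ w w', w ≠ w' → Disjoint (W w) (W w')) ∧
      ∀ w, (∃ i, p ≤ (w i).val) → Disjoint A (W w) := by
  obtain ⟨M, hM, t, ht⟩ := hV
  let g : (Fin (m + 1) → ℝ) → (Fin (m + 1) → ℝ) := fun x => t + M x
  have hg : Injective g := fun x y e => M.injective (add_left_cancel e)
  refine ⟨g '' simplex (m + 1) (p * h), fun w => g '' tile h 0 (fun i => (w i).val),
    ⟨M, hM, t, fun x hx => ⟨x, hx, rfl⟩⟩, ?_, fun w => ⟨?_, ?_⟩, ?_, ?_⟩
  · rintro _ ⟨z, ⟨hz, hz'⟩, rfl⟩
    exact ht z ⟨hz, hz'.trans_le (mul_le_mul_of_nonneg_right (by exact_mod_cast hp) hh)⟩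
  · refine ⟨(tileLin fun i => (w i).val).trans M, (isIntegral_tileLin _).trans hM,
      g (tileShift h 0 fun i => (w i).val), fun x hx => ⟨_, ⟨x, hx, rfl⟩, ?_⟩⟩
    simp [g, map_add, add_assoc]
  · rintro _ ⟨z, hz, rfl⟩
    obtain ⟨h1, -, i, h2⟩ := tile_spec le_rfl hz
    refine ht z ⟨h1, ?_⟩
    have : ((w i).val : ℝ) + 1 ≤ c := by exact_mod_cast (w i).isLt
    nlinarith [mul_le_mul_of_nonneg_left this hh]
  · intro w w' hne
    exact (Set.disjoint_image_iff hg).2 (tile_disjoint _ _ fun e => hne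
      (funext fun i => Fin.ext (congrFun e i)))
  · rintro w ⟨i, hi⟩
    refine (Set.disjoint_image_iff hg).2 (Set.disjoint_left.2 fun z hz hz' => ?_)
    have h1 := (tile_spec le_rfl hz').2.1 i
    have h2 : (p : ℝ) ≤ (w i).val := by exact_mod_cast hi
    have h3 : ∑ j, z j < p * h := hz.2
    nlinarith [mul_le_mul_of_nonneg_left h2 hh]

/-- Small balls fill a family of equal slots efficiently. -/
theorem fill_slots {κ ι : Type} [Fintype κ] [Fintype ι] {h : ℝ} (hh : 0 < h)
    {V : ι → Set (Fin (m + 1) → ℝ)} (hfit : ∀ i, Fits h (V i))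
    (hdis : ∀ i i', i ≠ i' → Disjoint (V i) (V i')) {C : ℕ} (hC : 1 ≤ C) {x : κ → ℝ}
    (hx : ∀ j, 0 < x j) (hxh : ∀ j, C * x j < h)
    (hvol : (((C : ℝ) + 1) / C) ^ (m + 1) * ∑ j, (x j / h) ^ (m + 1) + 2 * ((C : ℝ) + 1) ≤
      Fintype.card ι) :
    ∃ (bw : κ → ℝ) (W : κ → Set (Fin (m + 1) → ℝ)), (∀ j, x j < bw j) ∧
      (∀ j, Fits (bw j) (W j)) ∧ (∀ j, ∃ i, W j ⊆ V i) ∧
      ∀ j j', j ≠ j' → Disjoint (W j) (W j') := by
  classical
  have hC0 : (0 : ℝ) < C := by exact_mod_cast hC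
  have hcls : ∀ j, ∃ (l : ℕ) (d : Fin (C + 1)), x j * ((C : ℝ) + d.val) < h / 2 ^ l ∧
      h / 2 ^ l ≤ x j * ((C : ℝ) + d.val + 1) := by
    intro j
    obtain ⟨l, h1, h2⟩ := exists_level (mul_pos hC0 (hx j)) (hxh j)
    obtain ⟨L, hL⟩ : ∃ L, h / 2 ^ l = L := ⟨_, rfl⟩
    rw [hL] at h1 h2
    have hlo : (C : ℝ) < L / x j := by rw [lt_div_iff₀ (hx j)]; exact h1
    have hhi : L / x j ≤ 2 * C := by rw [div_le_iff₀ (hx j)]; linarith
    have hc1 : C < ⌈L / x j⌉₊ := Nat.lt_ceil.2 hlo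
    have hc2 : ⌈L / x j⌉₊ ≤ 2 * C := Nat.ceil_le.2 (by push_cast; exact hhi)
    refine ⟨l, ⟨⌈L / x j⌉₊ - 1 - C, by omega⟩, ?_, ?_⟩ <;> rw [hL]
    · have e : ((C : ℝ) + ((⌈L / x j⌉₊ - 1 - C : ℕ) : ℝ)) = ((⌈L / x j⌉₊ - 1 : ℕ) : ℝ) := by
        rw [← Nat.cast_add]; congr 1; omega
      rw [e, mul_comm, ← lt_div_iff₀ (hx j)]
      exact Nat.lt_ceil.1 (by omega)
    · have e : ((C : ℝ) + ((⌈L / x j⌉₊ - 1 - C : ℕ) : ℝ) + 1) = (⌈L / x j⌉₊ : ℝ) := by
        rw [← Nat.cast_add, ← Nat.cast_add_one]; congr 1; omega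
      rw [e, mul_comm, ← div_le_iff₀ (hx j)]
      exact Nat.le_ceil _
  choose l d hlo hhi using hcls
  set N := Finset.univ.sup l with hN
  let key : κ → Fin (N + 1) × Fin (C + 1) := fun j =>
    (⟨l j, Nat.lt_succ_of_le (Finset.le_sup (Finset.mem_univ j))⟩, d j)
  let cap : Fin (N + 1) × Fin (C + 1) → ℕ := fun K => (C + K.2.val) ^ (m + 1)
  have hcap : ∀ K, 0 < cap K := fun K => pow_pos (by omega) _
  let cnt : Fin (N + 1) × Fin (C + 1) → ℕ := fun K => Fintype.card {j // key j = K}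
  let T : Fin (N + 1) × Fin (C + 1) → ℕ := fun K => (cnt K + cap K - 1) / cap K
  have hT1 : ∀ K, cnt K ≤ T K * cap K := fun K => by
    have h1 := Nat.lt_mul_div_succ (cnt K + cap K - 1) (hcap K)
    rw [show (cnt K + cap K - 1) / cap K = T K from rfl, Nat.mul_succ] at h1
    have := hcap K
    rw [mul_comm]
    omega
  have hT2 : ∀ K, (T K : ℝ) ≤ cnt K / cap K + 1 := fun K => by
    have hc : (0 : ℝ) < cap K := by exact_mod_cast hcap K
    rw [← sub_le_iff_le_add, le_div_iff₀ hc]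
    have h1 : T K * cap K ≤ cnt K + cap K := le_trans (Nat.div_mul_le_self _ _) (by omega)
    have h2 : (T K : ℝ) * cap K ≤ cnt K + cap K := by exact_mod_cast h1
    linarith
  -- geometric estimate of the rounding loss
  have hgeo : ∑ K : Fin (N + 1) × Fin (C + 1), (1 / (2 : ℝ) ^ (m + 1)) ^ K.1.val ≤
      2 * ((C : ℝ) + 1) := by
    rw [Fintype.sum_prod_type]
    simp only [Finset.sum_const, Finset.card_univ, Fintype.card_fin, nsmul_eq_mul]
    rw [← Finset.mul_sum, Nat.cast_add_one, mul_comm]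
    refine mul_le_mul_of_nonneg_right ?_ (by positivity)
    calc ∑ i : Fin (N + 1), (1 / (2 : ℝ) ^ (m + 1)) ^ i.val
        ≤ ∑ i : Fin (N + 1), (1 / 2 : ℝ) ^ i.val := by
          refine Finset.sum_le_sum fun i _ => pow_le_pow_left₀ (by positivity) ?_ _
          exact one_div_le_one_div_of_le two_pos (le_self_pow₀ one_le_two (by omega))
      _ ≤ 2 := by
          rw [Fin.sum_univ_eq_sum_range (fun i => (1 / 2 : ℝ) ^ i)]
          exact sum_geometric_two_le _
  -- units used by the items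
  have hitem : ∑ K, (cnt K : ℝ) / cap K * (1 / (2 : ℝ) ^ (m + 1)) ^ K.1.val ≤
      (((C : ℝ) + 1) / C) ^ (m + 1) * ∑ j, (x j / h) ^ (m + 1) := by
    rw [Finset.mul_sum, ← Finset.sum_fiberwise Finset.univ key]
    refine Finset.sum_le_sum fun K _ => ?_
    have hcard : (cnt K : ℝ) = ∑ j ∈ Finset.univ.filter (fun j => key j = K), (1 : ℝ) := by
      simp [cnt, Fintype.card_subtype]
    rw [hcard, Finset.sum_div, Finset.sum_mul]
    refine Finset.sum_le_sum fun j hj => ?_
    obtain rfl := (Finset.mem_filter.1 hj).2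
    show (1 : ℝ) / ((C + (d j).val) ^ (m + 1) : ℕ) * (1 / (2 : ℝ) ^ (m + 1)) ^ l j ≤ _
    have e1 : ((1 : ℝ) / (2 : ℝ) ^ (m + 1)) ^ l j = (1 / 2 ^ l j) ^ (m + 1) := by
      rw [div_pow, one_pow, div_pow, one_pow, ← pow_mul, ← pow_mul, mul_comm]
    push_cast
    rw [e1, ← one_pow (m + 1), ← div_pow, one_pow, ← mul_pow, ← mul_pow]
    refine pow_le_pow_left₀ (by positivity) ?_ _
    have hd : (0 : ℝ) < (C : ℝ) + (d j).val := add_pos_of_pos_of_nonneg hC0 (Nat.cast_nonneg _)
    have h1 := hhi j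
    rw [div_le_iff₀ (by positivity)] at h1
    have h2 : ((C : ℝ) + (d j).val + 1) / ((C : ℝ) + (d j).val) ≤ ((C : ℝ) + 1) / C := by
      rw [div_le_div_iff₀ hd hC0]; nlinarith [Nat.cast_nonneg (α := ℝ) (d j).val]
    refine le_trans ?_ (mul_le_mul_of_nonneg_right h2 (div_nonneg (hx j).le hh.le))
    rw [div_mul_div_comm, div_mul_div_comm, one_mul]
    rw [div_le_div_iff₀ (by positivity) (by positivity)]
    nlinarith
  let β := (K : Fin (N + 1) × Fin (C + 1)) × Fin (T K)
  have hcount : ∑ q : β, (2 ^ (m + 1)) ^ (N - q.1.1.val) ≤ Fintype.card ι * (2 ^ (m + 1)) ^ N := by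
    have h1 : ((∑ q : β, (2 ^ (m + 1)) ^ (N - q.1.1.val) : ℕ) : ℝ) ≤
        ((Fintype.card ι * (2 ^ (m + 1)) ^ N : ℕ) : ℝ) := by
      rw [Fintype.sum_sigma]
      simp only [Finset.sum_const, Finset.card_univ, Fintype.card_fin, smul_eq_mul]
      push_cast
      calc ∑ K : Fin (N + 1) × Fin (C + 1), (T K : ℝ) * ((2 : ℝ) ^ (m + 1)) ^ (N - K.1.val)
          = (∑ K, (T K : ℝ) * (1 / (2 : ℝ) ^ (m + 1)) ^ K.1.val) * ((2 : ℝ) ^ (m + 1)) ^ N := by
            rw [Finset.sum_mul]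
            refine Finset.sum_congr rfl fun K _ => ?_
            rw [mul_assoc]
            congr 1
            rw [pow_sub₀ _ (by positivity) (Nat.lt_succ_iff.1 K.1.isLt), one_div, inv_pow]
            ring
        _ ≤ _ := by
            refine mul_le_mul_of_nonneg_right ?_ (by positivity)
            calc ∑ K, (T K : ℝ) * (1 / (2 : ℝ) ^ (m + 1)) ^ K.1.val
                ≤ ∑ K, ((cnt K : ℝ) / cap K + 1) * (1 / (2 : ℝ) ^ (m + 1)) ^ K.1.val :=
                  Finset.sum_le_sum fun K _ => mul_le_mul_of_nonneg_right (hT2 K) (by positivity)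
              _ ≤ Fintype.card ι := by
                  simp only [add_mul, one_mul, Finset.sum_add_distrib]
                  linarith
    exact_mod_cast h1
  obtain ⟨W, hW, hWV, hWd⟩ := alloc N ι h V hfit hdis β (fun q => q.1.1.val)
    (fun q => Nat.lt_succ_iff.1 q.1.1.isLt) hcount
  have hsub : ∀ q : β, ∃ (A : Set (Fin (m + 1) → ℝ))
      (Z : (Fin (m + 1) → Fin (C + q.1.2.val)) → Set (Fin (m + 1) → ℝ)),
      Fits (((0 : ℕ) : ℝ) * (h / 2 ^ q.1.1.val / (C + q.1.2.val : ℕ))) A ∧ A ⊆ W q ∧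
      (∀ w, Fits (h / 2 ^ q.1.1.val / (C + q.1.2.val : ℕ)) (Z w) ∧ Z w ⊆ W q) ∧
      (∀ w w', w ≠ w' → Disjoint (Z w) (Z w')) ∧
      ∀ w, (∃ i, 0 ≤ (w i).val) → Disjoint A (Z w) := fun q => by
    have hc : (0 : ℝ) < ((C + q.1.2.val : ℕ) : ℝ) := by exact_mod_cast (by omega : 0 < C + q.1.2.val)
    refine Fits.subdivide (by positivity) (Nat.zero_le _) ?_
    rw [mul_div_cancel₀ _ hc.ne']
    exact hW q
  choose A Z hA hAW hZ hZd hAZ using hsub
  have hemb : ∀ K, Nonempty ({j // key j = K} ↪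
      Fin (T K) × (Fin (m + 1) → Fin (C + K.2.val))) := fun K =>
    Function.Embedding.nonempty_of_card_le (by
      rw [Fintype.card_prod, Fintype.card_fin, Fintype.card_fun, Fintype.card_fin, Fintype.card_fin]
      exact hT1 K)
  let e := fun K => Classical.choice (hemb K)
  let q : κ → β := fun j => ⟨key j, (e (key j) ⟨j, rfl⟩).1⟩
  refine ⟨fun j => h / 2 ^ l j / ((C + (d j).val : ℕ) : ℝ),
    fun j => Z (q j) (e (key j) ⟨j, rfl⟩).2, fun j => ?_, fun j => (hZ (q j) _).1, fun j => ?_, ?_⟩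
  · rw [lt_div_iff₀ (by exact_mod_cast (by omega : 0 < C + (d j).val))]
    push_cast
    exact hlo j
  · obtain ⟨i, hi⟩ := hWV (q j)
    exact ⟨i, (hZ (q j) _).2.trans hi⟩
  · have hsame : ∀ K (u u' : {j // key j = K}), u ≠ u' → Disjoint
        (Z ⟨K, (e K u).1⟩ (e K u).2) (Z ⟨K, (e K u').1⟩ (e K u').2) := by
      intro K u u' hne
      by_cases he : (e K u).1 = (e K u').1
      · rw [← he]
        exact hZd _ _ _ fun he2 => hne ((e K).injective (Prod.ext he he2))
      · refine Disjoint.mono (hZ _ _).2 (hZ _ _).2 (hWd _ _ fun hq => he ?_)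
        exact eq_of_heq (Sigma.mk.inj hq).2
    intro j j' hne
    by_cases hk : key j = key j'
    · have h1 := hsame (key j') ⟨j, hk⟩ ⟨j', rfl⟩ fun he => hne (congrArg Subtype.val he)
      have tr : ∀ (K : Fin (N + 1) × Fin (C + 1)) (hK : key j = K),
          Z (q j) (e (key j) ⟨j, rfl⟩).2 = Z ⟨K, (e K ⟨j, hK⟩).1⟩ (e K ⟨j, hK⟩).2 := by
        intro K hK; subst hK; rfl
      beta_reduce
      rw [tr _ hk]
      exact h1
    · exact Disjoint.mono (hZ _ _).2 (hZ _ _).2
        (hWd _ _ fun hq => hk (congrArg Sigma.fst hq))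

/-- Large balls take corners of slots; small balls fill the remaining cells. -/
theorem fill_mixed {κ ι η : Type} [Fintype κ] [Fintype ι] [Fintype η] {h : ℝ} (hh : 0 < h)
    {N : ℕ} {V : ι → Set (Fin (m + 1) → ℝ)} {E : η → Set (Fin (m + 1) → ℝ)}
    (hV : ∀ i, Fits (N * h) (V i)) (hE : ∀ u, Fits h (E u))
    (hVd : ∀ i i', i ≠ i' → Disjoint (V i) (V i')) (hEd : ∀ u u', u ≠ u' → Disjoint (E u) (E u'))
    (hVE : ∀ i u, Disjoint (V i) (E u)) {C : ℕ} (hC : 1 ≤ C) {x : κ → ℝ} (hx : ∀ j, 0 < x j)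
    (big : κ → Prop) [DecidablePred big] (hbig : ∀ j, big j → x j < N * h)
    (hsmall : ∀ j, ¬ big j → C * x j < h)
    (hcard : Fintype.card {j // big j} ≤ Fintype.card ι)
    (hvol : (((C : ℝ) + 1) / C) ^ (m + 1) *
          ∑ j : {j // ¬ big j}, (x j / h) ^ (m + 1) + 2 * ((C : ℝ) + 1) +
        ∑ j : {j // big j}, (x j / h + 1) ^ (m + 1) ≤
      Fintype.card η + Fintype.card ι * (N : ℝ) ^ (m + 1)) :
    ∃ (bw : κ → ℝ) (W : κ → Set (Fin (m + 1) → ℝ)), (∀ j, x j < bw j) ∧
      (∀ j, Fits (bw j) (W j)) ∧ (∀ j, (∃ i, W j ⊆ V i) ∨ ∃ u, W j ⊆ E u) ∧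
      ∀ j j', j ≠ j' → Disjoint (W j) (W j') := by
  classical
  obtain ⟨e⟩ := Function.Embedding.nonempty_of_card_le hcard
  -- corner size in each slot
  let p : ι → ℕ := fun i => if hi : ∃ b, e b = i then ⌊x hi.choose / h⌋₊ + 1 else 0
  have hpe : ∀ b, p (e b) = ⌊x b / h⌋₊ + 1 := fun b => by
    have hi : ∃ b', e b' = e b := ⟨b, rfl⟩
    simp only [p, dif_pos hi, e.injective hi.choose_spec]
  have hpN : ∀ i, p i ≤ N := fun i => by
    by_cases hi : ∃ b, e b = i
    · obtain ⟨b, rfl⟩ := hi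
      rw [hpe, Nat.add_one_le_iff]
      exact (Nat.floor_lt (div_nonneg (hx _).le hh.le)).2
        ((div_lt_iff₀ hh).2 (hbig _ b.2))
    · simp only [p, dif_neg hi]
      exact Nat.zero_le N
  choose A Z hA hAV hZ hZd hAZ using fun i => Fits.subdivide hh.le (hpN i) (hV i)
  let G := η ⊕ ((i : ι) × {w : Fin (m + 1) → Fin N // ∃ j, p i ≤ (w j).val})
  let U : G → Set (Fin (m + 1) → ℝ) := fun g => match g with
    | .inl u => E u
    | .inr ⟨i, w⟩ => Z i w.1
  have hU : ∀ g, Fits h (U g) := fun g => match g with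
    | .inl u => hE u
    | .inr ⟨i, w⟩ => (hZ i w.1).1
  have hUd : ∀ g g', g ≠ g' → Disjoint (U g) (U g') := by
    rintro (u | ⟨i, w⟩) (u' | ⟨i', w'⟩) hne
    · exact hEd _ _ fun he => hne (congrArg _ he)
    · exact (hVE i' u).symm.mono_right (hZ i' w'.1).2
    · exact (hVE i u').mono_left (hZ i w.1).2
    · by_cases hi : i = i'
      · subst hi
        exact hZd i _ _ fun he => hne (by rw [Subtype.ext he])
      · exact (hVd _ _ hi).mono (hZ i w.1).2 (hZ i' w'.1).2
  have hAU : ∀ b g, Disjoint (A (e b)) (U g) := by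
    rintro b (u | ⟨i, w⟩)
    · exact (hVE (e b) u).mono_left (hAV _)
    · by_cases hi : e b = i
      · subst hi
        exact hAZ _ _ w.2
      · exact (hVd _ _ hi).mono (hAV _) (hZ i w.1).2
  have hcorner : ∀ i, Fintype.card {w : Fin (m + 1) → Fin N // ∃ j, p i ≤ (w j).val} +
      p i ^ (m + 1) = N ^ (m + 1) := fun i => by
    have q : {w : Fin (m + 1) → Fin N // ¬ ∃ j, p i ≤ (w j).val} ≃
        (Fin (m + 1) → Fin (p i)) :=
      { toFun := fun w j => ⟨(w.1 j).val, not_le.1 fun hle => w.2 ⟨j, hle⟩⟩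
        invFun := fun v => ⟨fun j => (v j).castLE (hpN i), fun ⟨j, hj⟩ =>
          absurd (v j).isLt (not_lt.2 (by simpa using hj))⟩
        left_inv := fun w => by ext j; simp
        right_inv := fun v => by funext j; ext; simp }
    have h1 := Fintype.card_congr
      (Equiv.sumCompl fun w : Fin (m + 1) → Fin N => ∃ j, p i ≤ (w j).val)
    rw [Fintype.card_sum, Fintype.card_congr q] at h1
    simpa using h1
  have hsump : ∑ i, (p i : ℝ) ^ (m + 1) ≤ ∑ j : {j // big j}, (x j / h + 1) ^ (m + 1) := by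
    have h1 : ∑ i, (p i : ℝ) ^ (m + 1) = ∑ b, (p (e b) : ℝ) ^ (m + 1) := by
      refine (Finset.sum_bij_ne_zero (fun b _ _ => e b) (fun _ _ _ => Finset.mem_univ _)
        (fun b _ _ b' _ _ he => e.injective he) (fun i _ hi => ?_) (fun _ _ _ => rfl)).symm
      by_cases hb : ∃ b, e b = i
      · obtain ⟨b, rfl⟩ := hb
        exact ⟨b, Finset.mem_univ _, hi, rfl⟩
      · exfalso
        apply hi
        simp only [p, dif_neg hb]
        simp
    rw [h1]
    refine Finset.sum_le_sum fun b _ => pow_le_pow_left₀ (Nat.cast_nonneg _) ?_ _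
    rw [hpe]
    push_cast
    linarith [Nat.floor_le (div_nonneg (hx (b : κ)).le hh.le)]
  have hG : (Fintype.card G : ℝ) = Fintype.card η + (Fintype.card ι * (N : ℝ) ^ (m + 1) -
      ∑ i, (p i : ℝ) ^ (m + 1)) := by
    simp only [G, Fintype.card_sum, Fintype.card_sigma, Nat.cast_add, Nat.cast_sum]
    congr 1
    rw [eq_sub_iff_add_eq, ← Finset.sum_add_distrib]
    calc ∑ i, ((Fintype.card {w : Fin (m + 1) → Fin N // ∃ j, p i ≤ (w j).val} : ℝ) +
          (p i : ℝ) ^ (m + 1)) = ∑ _i : ι, (N : ℝ) ^ (m + 1) :=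
            Finset.sum_congr rfl fun i _ => by exact_mod_cast hcorner i
      _ = _ := by simp
  obtain ⟨bw, W, hbw, hW, hWU, hWd⟩ := fill_slots hh hU hUd hC
    (x := fun j : {j // ¬ big j} => x j) (fun j => hx j) (fun j => hsmall j j.2)
    (by rw [hG]; linarith)
  refine ⟨fun j => if hj : big j then (p (e ⟨j, hj⟩) : ℝ) * h else bw ⟨j, hj⟩,
    fun j => if hj : big j then A (e ⟨j, hj⟩) else W ⟨j, hj⟩, fun j => ?_, fun j => ?_,
    fun j => ?_, fun j j' hne => ?_⟩
  · by_cases hj : big j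
    · simp only [dif_pos hj, hpe]
      push_cast
      exact (div_lt_iff₀ hh).1 (Nat.lt_floor_add_one (x j / h))
    · simpa [dif_neg hj] using hbw ⟨j, hj⟩
  · by_cases hj : big j
    · simpa [dif_pos hj] using hA (e ⟨j, hj⟩)
    · simpa [dif_neg hj] using hW ⟨j, hj⟩
  · by_cases hj : big j
    · simp only [dif_pos hj]
      exact Or.inl ⟨_, hAV _⟩
    · simp only [dif_neg hj]
      obtain ⟨g, hg⟩ := hWU ⟨j, hj⟩
      rcases g with u | ⟨i, w⟩
      · exact Or.inr ⟨u, hg⟩
      · exact Or.inl ⟨i, hg.trans (hZ i w.1).2⟩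
  · by_cases hj : big j <;> by_cases hj' : big j' <;>
      simp only [hj, hj', dite_true, dite_false, not_false_eq_true]
    · exact (hVd _ _ fun he => hne (congrArg Subtype.val (e.injective he))).mono (hAV _) (hAV _)
    · obtain ⟨g, hg⟩ := hWU ⟨j', hj'⟩
      exact (hAU _ g).mono_right hg
    · obtain ⟨g, hg⟩ := hWU ⟨j, hj⟩
      exact ((hAU _ g).mono_right hg).symm
    · exact hWd _ _ fun he => hne (congrArg Subtype.val he)

/-- Cells of the shell below the offset of the aligned slots. -/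
theorem shell_grid {R a h : ℝ} (hh : 0 < h) {N Q q s : ℕ} (hQ : Q = q * N + s)
    (hlo : Q * h ≤ a) (hR : a + N * h = R) :
    ∃ (V : Option (Shell m q) → Set (Fin (m + 1) → ℝ)) (η : Type) (_ : Fintype η)
      (E : η → Set (Fin (m + 1) → ℝ)),
      Fits a (V none) ∧ (∀ w, Fits (N * h) (V (some w))) ∧ (∀ o, V o ⊆ simplex (m + 1) R) ∧
      (∀ o o', o ≠ o' → Disjoint (V o) (V o')) ∧
      (∀ u, Fits h (E u) ∧ E u ⊆ simplex (m + 1) R) ∧
      (∀ u u', u ≠ u' → Disjoint (E u) (E u')) ∧ (∀ o u, Disjoint (V o) (E u)) ∧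
      ((Q + N : ℕ) : ℝ) ^ (m + 1) - (Q : ℝ) ^ (m + 1) =
        Fintype.card η + Fintype.card (Shell m q) * (N : ℝ) ^ (m + 1) := by
  classical
  let τ := a - Q * h
  have hτ : 0 ≤ τ := sub_nonneg.2 hlo
  have hb : (0 : ℝ) ≤ N * h := by positivity
  have hQr : (Q : ℝ) = q * N + s := by exact_mod_cast hQ
  have hτ' : 0 ≤ a - q * (N * h) := by
    have : (0 : ℝ) ≤ s * h := by positivity
    rw [hQr] at hlo
    linarith
  -- the same slots as in `shell_slots`, with explicit offset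
  let τ' := a - q * (N * h)
  let V : Option (Shell m q) → Set (Fin (m + 1) → ℝ) := fun o => match o with
    | none => simplex (m + 1) a
    | some w => tile (N * h) τ' fun i => (w.1 i).val
  let η := {W : Fin (m + 1) → Fin (Q + N) // (∃ i, Q ≤ (W i).val) ∧ ∃ i, (W i).val < s}
  let E : η → Set (Fin (m + 1) → ℝ) := fun u => tile h τ fun i => (u.1 i).val
  have hVspec : ∀ w : Shell m q, ∀ z ∈ V (some w),
      z ∈ simplex (m + 1) R ∧ a < ∑ j, z j := by
    intro w z hz
    obtain ⟨h1, h2, i, h3⟩ := tile_spec hτ' hz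
    obtain ⟨i0, hi0⟩ := w.2
    have e : ((w.1 i0).val : ℝ) = q := by rw [hi0]; simp
    have hle : ((w.1 i).val : ℝ) ≤ q := by exact_mod_cast Nat.lt_succ_iff.1 (w.1 i).isLt
    refine ⟨⟨h1, ?_⟩, ?_⟩
    · nlinarith [mul_le_mul_of_nonneg_left hle hb]
    · have := h2 i0
      rw [e] at this
      linarith
  have hEspec : ∀ u : η, ∀ z ∈ E u, z ∈ simplex (m + 1) R ∧ a < ∑ j, z j := by
    intro u z hz
    obtain ⟨h1, h2, i, h3⟩ := tile_spec hτ hz
    obtain ⟨i0, hi0⟩ := u.2.1
    have hQ0 : (Q : ℝ) ≤ (u.1 i0).val := by exact_mod_cast hi0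
    have hle : ((u.1 i).val : ℝ) + 1 ≤ Q + N := by exact_mod_cast (u.1 i).isLt
    refine ⟨⟨h1, ?_⟩, ?_⟩
    · nlinarith [mul_le_mul_of_nonneg_left hle hh.le]
    · nlinarith [h2 i0, mul_le_mul_of_nonneg_left hQ0 hh.le]
  refine ⟨V, η, inferInstance, E, ?_, fun w => fits_tile _ _ _, ?_, ?_,
    fun u => ⟨fits_tile _ _ _, fun z hz => (hEspec u z hz).1⟩, ?_, ?_, ?_⟩
  · exact ⟨LinearEquiv.refl ℝ _, fun _ hx => hx, 0, fun x hx => by simpa [V] using hx⟩
  · rintro (_ | w)
    · exact fun z hz => ⟨hz.1, by linarith [show ∑ i, z i < a from hz.2]⟩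
    · exact fun z hz => (hVspec w z hz).1
  · rintro (_ | w) (_ | w') hne
    · exact absurd rfl hne
    · exact Set.disjoint_left.2 fun z hz hz' =>
        lt_asymm (show ∑ i, z i < a from hz.2) (hVspec w' z hz').2
    · exact Set.disjoint_left.2 fun z hz hz' =>
        lt_asymm (show ∑ i, z i < a from hz'.2) (hVspec w z hz).2
    · exact tile_disjoint _ _ fun he =>
        hne (congrArg some (Subtype.ext (funext fun i => Fin.ext (congrFun he i))))
  · exact fun u u' hne => tile_disjoint _ _ fun he =>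
      hne (Subtype.ext (funext fun i => Fin.ext (congrFun he i)))
  · rintro (_ | w) u
    · exact Set.disjoint_left.2 fun z hz hz' =>
        lt_asymm (show ∑ i, z i < a from hz.2) (hEspec u z hz').2
    · refine Set.disjoint_left.2 ?_
      rintro _ ⟨y, hy, rfl⟩ ⟨y', hy', he⟩
      obtain ⟨i, hi⟩ := u.2.2
      set j := (Tuple.sort fun i => (u.1 i).val).symm i
      have e1 := congrArg (fun z => cum z j) he
      simp only [cum_tile] at e1
      rw [show (Tuple.sort fun i => (u.1 i).val) j = i from Equiv.apply_symm_apply _ _] at e1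
      have h1 := ((cum_bounds hy).2 (Tuple.sort (fun i => (w.1 i).val) j)).1
      have h2 := ((cum_bounds hy').2 i).2
      have h3 : ((u.1 i).val : ℝ) + 1 ≤ s := by exact_mod_cast hi
      have h4 : 0 ≤ (N * h) * ((w.1 (Tuple.sort (fun i => (w.1 i).val) j)).val : ℝ) := by positivity
      have h5 : τ' = τ + s * h := by simp only [τ, τ', hQr]; ring
      nlinarith [mul_le_mul_of_nonneg_left h3 hh.le]
  · -- counting
    have hall : ∀ B T : ℕ, s ≤ B → B ≤ T →
        Fintype.card {W : Fin (m + 1) → Fin T // ∀ i, s ≤ (W i).val ∧ (W i).val < B} =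
          (B - s) ^ (m + 1) := fun B T hsB hBT => by
      rw [Fintype.card_congr
        ({ toFun := fun W i => ⟨(W.1 i).val - s, by have := W.2 i; omega⟩
           invFun := fun v => ⟨fun i => ⟨(v i).val + s, by have := (v i).isLt; omega⟩,
             fun i => by have := (v i).isLt; simp only; omega⟩
           left_inv := fun W => by ext i; have := W.2 i; simp only; omega
           right_inv := fun v => by funext i; ext; simp only; omega } :
          {W : Fin (m + 1) → Fin T // ∀ i, s ≤ (W i).val ∧ (W i).val < B} ≃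
            (Fin (m + 1) → Fin (B - s)))]
      simp
    let f : (Fin (m + 1) → Fin (Q + N)) → Prop := fun W => ∃ i, Q ≤ (W i).val
    let g : (Fin (m + 1) → Fin (Q + N)) → Prop := fun W => ∃ i, (W i).val < s
    have hfg := Finset.card_filter_add_card_filter_not
      (s := Finset.univ.filter f) (p := g)
    simp only [Finset.filter_filter] at hfg
    have hf := Finset.card_filter_add_card_filter_not
      (s := (Finset.univ : Finset (Fin (m + 1) → Fin (Q + N)))) (p := f)
    have hnf : (Finset.univ.filter fun W => ¬ f W).card = Q ^ (m + 1) := by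
      rw [← Fintype.card_subtype, Fintype.card_congr
        ({ toFun := fun W i => ⟨(W.1 i).val, not_le.1 fun hle => W.2 ⟨i, hle⟩⟩
           invFun := fun v => ⟨fun i => (v i).castLE (by omega), fun ⟨i, hi⟩ =>
             absurd (v i).isLt (not_lt.2 (by simpa using hi))⟩
           left_inv := fun W => by ext i; simp
           right_inv := fun v => by funext i; ext; simp } :
          {W : Fin (m + 1) → Fin (Q + N) // ¬ f W} ≃ (Fin (m + 1) → Fin Q))]
      simp
    have hfng : (Finset.univ.filter fun W => f W ∧ ¬ g W).card +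
        (q * N) ^ (m + 1) = ((q + 1) * N) ^ (m + 1) := by
      have h1 := hall (Q + N) (Q + N) (by omega) le_rfl
      have h2 := hall Q (Q + N) (by omega) (by omega)
      rw [Fintype.card_subtype] at h1 h2
      have h3 := Finset.card_filter_add_card_filter_not
        (s := Finset.univ.filter fun W : Fin (m + 1) → Fin (Q + N) =>
          ∀ i, s ≤ (W i).val ∧ (W i).val < Q + N) (p := f)
      simp only [Finset.filter_filter, h1] at h3
      rw [show Q + N - s = (q + 1) * N by rw [hQ, add_mul, one_mul]; omega] at h3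
      rw [show Q - s = q * N by omega] at h2
      have e1 : (Finset.univ.filter fun W => f W ∧ ¬ g W) =
          Finset.univ.filter fun W : Fin (m + 1) → Fin (Q + N) =>
            (∀ i, s ≤ (W i).val ∧ (W i).val < Q + N) ∧ f W :=
        Finset.filter_congr fun W _ => by
          simp only [f, g, not_exists, not_lt]
          exact ⟨fun hW => ⟨fun i => ⟨hW.2 i, (W i).isLt⟩, hW.1⟩,
            fun hW => ⟨hW.2, fun i => (hW.1 i).1⟩⟩
      have e2 : (Finset.univ.filter fun W : Fin (m + 1) → Fin (Q + N) =>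
            (∀ i, s ≤ (W i).val ∧ (W i).val < Q + N) ∧ ¬ f W) =
          Finset.univ.filter fun W : Fin (m + 1) → Fin (Q + N) =>
            ∀ i, s ≤ (W i).val ∧ (W i).val < Q :=
        Finset.filter_congr fun W _ => by
          simp only [f, not_exists, not_le]
          exact ⟨fun hW i => ⟨(hW.1 i).1, hW.2 i⟩,
            fun hW => ⟨fun i => ⟨(hW i).1, (W i).isLt⟩, fun i => (hW i).2⟩⟩
      rw [e1]
      rw [e2, h2] at h3
      exact h3
    have hη : Fintype.card η = (Finset.univ.filter fun W => f W ∧ g W).card :=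
      Fintype.card_subtype _
    rw [Finset.card_univ, Fintype.card_fun, Fintype.card_fin, Fintype.card_fin, hnf] at hf
    have hS : Fintype.card (Shell m q) * N ^ (m + 1) + (q * N) ^ (m + 1) =
        ((q + 1) * N) ^ (m + 1) := by
      rw [card_shell, mul_pow, mul_pow, ← add_mul,
        Nat.sub_add_cancel (Nat.pow_le_pow_left (Nat.le_succ q) _)]
    have key : Fintype.card η + Fintype.card (Shell m q) * N ^ (m + 1) + Q ^ (m + 1) =
        (Q + N) ^ (m + 1) := by
      omega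
    rw [sub_eq_iff_eq_add]
    exact_mod_cast key.symm

end Vale.Agent.P209
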