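import Mathlib
import Vale.Agent.P209.Fill

namespace Vale.Agent.P209

open Set Function Filter Topology

variable {m : ℕ}

theorem shell_card_lower {q : ℕ} (hq : 1 ≤ q) :
    ∀ p : ℕ, (2 : ℝ) ^ p - 1 ≤ ((q : ℝ) + 1) ^ p - (q : ℝ) ^ p := by
  have hq' : (1 : ℝ) ≤ q := by exact_mod_cast hq
  intro p
  induction p with
  | zero => simp
  | succ p ih =>
      have h1 : (2 : ℝ) ^ p ≤ ((q : ℝ) + 1) ^ p := pow_le_pow_left₀ zero_le_two (by linarith) _
      have h2 : (0 : ℝ) ≤ 2 ^ p - 1 := sub_nonneg.2 (one_le_pow₀ one_le_two)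
      have h3 := mul_le_mul hq' ih h2 (by linarith)
      rw [pow_succ, pow_succ, pow_succ]
      linarith

/-- The bookkeeping inequality behind the asymptotic packing. -/
theorem budget {κ : Type} [Fintype κ] (big : κ → Prop) [DecidablePred big] {x : κ → ℝ} {C N : ℕ}
    {R h ε T : ℝ} (hR : 0 < R) (hh : 0 < h) (hN : 1 ≤ N) (hε : 0 < ε)
    (hC : (((C : ℝ) + 1) / C) ^ (m + 1) ≤ 1 + ε / 4)
    (hCN : 8 * ((C : ℝ) + 1) ≤ ε * N)
    (hbN : 8 * ((2 : ℝ) ^ (m + 1) * (m + 1)) ≤ ε * N)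
    (hhR : h * N ≤ R) (hx : ∀ j, 0 < x j) (hxR : ∀ j, big j → x j + h ≤ R)
    (hcard : Fintype.card {j // big j} ≤ 2 ^ (m + 1))
    (hsum : ∑ j, x j ^ (m + 1) ≤ R ^ (m + 1))
    (hT : ∑ j, x j ^ (m + 1) + 5 / 8 * ε * R ^ (m + 1) ≤ T * h ^ (m + 1)) :
    (((C : ℝ) + 1) / C) ^ (m + 1) *
          ∑ j : {j // ¬ big j}, (x j / h) ^ (m + 1) + 2 * ((C : ℝ) + 1) +
        ∑ j : {j // big j}, (x j / h + 1) ^ (m + 1) ≤ T := by
  classical
  have hp : 0 < h ^ (m + 1) := pow_pos hh _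
  have hN' : (1 : ℝ) ≤ N := by exact_mod_cast hN
  have hN0 : (0 : ℝ) < N := by linarith
  refine le_of_mul_le_mul_right ?_ hp
  rw [add_mul, add_mul, mul_assoc, Finset.sum_mul, Finset.sum_mul]
  have e1 : ∀ j, (x j / h) ^ (m + 1) * h ^ (m + 1) = x j ^ (m + 1) := fun j => by
    rw [← mul_pow, div_mul_cancel₀ _ hh.ne']
  have e2 : ∀ j, (x j / h + 1) ^ (m + 1) * h ^ (m + 1) = (x j + h) ^ (m + 1) := fun j => by
    rw [← mul_pow, add_mul, div_mul_cancel₀ _ hh.ne', one_mul]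
  simp only [e1, e2]
  have hsplit := Fintype.sum_subtype_add_sum_subtype big (fun j => x j ^ (m + 1))
  set SS := ∑ j : {j // ¬ big j}, x j ^ (m + 1)
  set SB := ∑ j : {j // big j}, x j ^ (m + 1)
  have hSB : 0 ≤ SB := Finset.sum_nonneg fun j _ => (pow_pos (hx j) _).le
  have hSS : 0 ≤ SS := Finset.sum_nonneg fun j _ => (pow_pos (hx j) _).le
  have hbig : ∑ j : {j // big j}, (x j + h) ^ (m + 1) ≤ SB + ε / 8 * R ^ (m + 1) := by
    have h1 : ∀ j : {j // big j}, (x j + h) ^ (m + 1) ≤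
        x j ^ (m + 1) + (m + 1) * h * R ^ m := fun j => by
      have hx' := hx (j : κ)
      have h2 := pow_sub_pow_le_mul (a := x j) (R := x j + h) hx'.le (by linarith) m
      have h3 : (x j + h) ^ m ≤ R ^ m := pow_le_pow_left₀ (by linarith) (hxR j j.2) _
      rw [show x j + h - x j = h by ring] at h2
      have h4 := mul_le_mul_of_nonneg_left h3 (show (0 : ℝ) ≤ (m + 1) * h by positivity)
      linarith
    calc ∑ j : {j // big j}, (x j + h) ^ (m + 1)
        ≤ ∑ j : {j // big j}, (x j ^ (m + 1) + (m + 1) * h * R ^ m) :=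
          Finset.sum_le_sum fun j _ => h1 j
      _ = SB + Fintype.card {j // big j} * ((m + 1) * h * R ^ m) := by
          simp [Finset.sum_add_distrib, SB]
      _ ≤ SB + (2 : ℝ) ^ (m + 1) * ((m + 1) * h * R ^ m) := by
          refine add_le_add le_rfl (mul_le_mul_of_nonneg_right ?_ (by positivity))
          exact_mod_cast hcard
      _ ≤ SB + ε / 8 * R ^ (m + 1) := by
          have h5 := mul_le_mul_of_nonneg_left hbN (show (0 : ℝ) ≤ h * R ^ m by positivity)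
          have h6 := mul_le_mul_of_nonneg_left hhR (show (0 : ℝ) ≤ ε * R ^ m by positivity)
          rw [pow_succ R]
          linarith
  have hwaste : 2 * ((C : ℝ) + 1) * h ^ (m + 1) ≤ ε / 4 * R ^ (m + 1) := by
    have h1 : h ^ (m + 1) * N ≤ R ^ (m + 1) := by
      calc h ^ (m + 1) * N ≤ h ^ (m + 1) * (N : ℝ) ^ (m + 1) :=
            mul_le_mul_of_nonneg_left (le_self_pow₀ hN' (by simp)) hp.le
        _ = (h * N) ^ (m + 1) := (mul_pow _ _ _).symm
        _ ≤ R ^ (m + 1) := pow_le_pow_left₀ (by positivity) hhR _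
    have h2 := mul_le_mul_of_nonneg_left hCN hp.le
    have h3 := mul_le_mul_of_nonneg_left h1 hε.le
    linarith
  have hsmall : (((C : ℝ) + 1) / C) ^ (m + 1) * SS ≤ SS + ε / 4 * R ^ (m + 1) := by
    have h1 := mul_le_mul_of_nonneg_right hC hSS
    have h2 := mul_le_mul_of_nonneg_left (show SS ≤ R ^ (m + 1) by linarith) (show 0 ≤ ε / 4 by linarith)
    linarith
  linarith

/-- Numerical parameters for a prescribed volume loss `e`. -/
structure Params (m : ℕ) (e : ℝ) where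
  C : ℕ
  N : ℕ
  pos : 0 < e
  le_half : e ≤ 1 / 2
  one_le_C : 1 ≤ C
  one_le_N : 1 ≤ N
  ratio : (((C : ℝ) + 1) / C) ^ (m + 1) ≤ 1 + e / 4
  CN : 8 * ((C : ℝ) + 1) ≤ e * N
  bN : 8 * ((2 : ℝ) ^ (m + 1) * (m + 1)) ≤ e * N

/-- The smallness threshold. -/
noncomputable def Params.delta {e : ℝ} (P : Params m e) : ℝ :=
  e / (8 * (m + 1) * P.N * P.C)

theorem Params.delta_pos {e : ℝ} (P : Params m e) : 0 < P.delta := by
  have := P.one_le_C
  have := P.one_le_N
  have := P.pos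
  have hC : (0 : ℝ) < P.C := by exact_mod_cast (by omega : 0 < P.C)
  have hN : (0 : ℝ) < P.N := by exact_mod_cast (by omega : 0 < P.N)
  exact div_pos P.pos (by positivity)

theorem Params.mul_delta {e : ℝ} (P : Params m e) (R : ℝ) :
    P.C * (P.delta * R) = e * R / (8 * (m + 1) * P.N) := by
  have hC : (P.C : ℝ) ≠ 0 := by
    exact_mod_cast (by have := P.one_le_C; omega : P.C ≠ 0)
  rw [Params.delta]; field_simp

theorem Params.small {e : ℝ} (P : Params m e) {R h x : ℝ} (hR : 0 < R)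
    (hh : e * R / (4 * (m + 1) * P.N) ≤ h) (hx : ¬ P.delta * R < x) : P.C * x < h := by
  have hN : (0 : ℝ) < P.N := by exact_mod_cast (by have := P.one_le_N; omega : 0 < P.N)
  have h1 : (P.C : ℝ) * x ≤ P.C * (P.delta * R) :=
    mul_le_mul_of_nonneg_left (not_lt.1 hx) (Nat.cast_nonneg _)
  rw [P.mul_delta] at h1
  have h2 : e * R / (8 * (m + 1) * P.N) < e * R / (4 * (m + 1) * P.N) := by
    apply div_lt_div_of_pos_left (mul_pos P.pos hR) (by positivity)
    linarith [mul_pos (show (0 : ℝ) < m + 1 by positivity) hN]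
  linarith

theorem gap_lower {R a e r₀ : ℝ} (hR : 0 < R) (he : 0 < e) (ha : 0 ≤ a) (haR : a ≤ R)
    (h2 : r₀ ^ (m + 1) ≤ (1 - e) * R ^ (m + 1))
    (hd : a ^ (m + 1) - r₀ ^ (m + 1) < e / 8 * R ^ (m + 1)) :
    e * R ≤ 4 * (m + 1) * (R - a) := by
  have h1 := pow_sub_pow_le_mul (a := a) (R := R) ha haR m
  have h0 : 0 ≤ e * R ^ (m + 1) := by positivity
  have h3 : 7 / 8 * e * R ^ (m + 1) ≤ (m + 1) * (R - a) * R ^ m := by linarith
  have hm : 0 ≤ (m + 1 : ℝ) * (R - a) := mul_nonneg (by positivity) (sub_nonneg.2 haR)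
  have h4 : 7 / 8 * e * R ≤ (m + 1) * (R - a) :=
    le_of_mul_le_mul_right (by rw [pow_succ R] at h3; linarith) (pow_pos hR m)
  linarith

theorem grid_mass {R a h e r₀ S : ℝ} {N Q : ℕ} (hh : 0 < h) (he : 0 < e)
    (haN : a + N * h = R) (hQh : (Q : ℝ) * h ≤ a) (hQh' : a < ((Q : ℝ) + 1) * h)
    (hhR : h * N ≤ R) (hhR' : h ≤ R) (h5 : 8 * (m + 1 : ℝ) ≤ e * N)
    (hd : a ^ (m + 1) - r₀ ^ (m + 1) < e / 8 * R ^ (m + 1))
    (hS : S + r₀ ^ (m + 1) ≤ (1 - e) * R ^ (m + 1)) :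
    S + 5 / 8 * e * R ^ (m + 1) ≤
      (((Q + N : ℕ) : ℝ) ^ (m + 1) - (Q : ℝ) ^ (m + 1)) * h ^ (m + 1) := by
  rw [sub_mul, ← mul_pow, ← mul_pow]
  have hR0 : 0 ≤ R := hh.le.trans hhR'
  have h1 : (R - h) ^ (m + 1) ≤ (((Q + N : ℕ) : ℝ) * h) ^ (m + 1) := by
    refine pow_le_pow_left₀ (sub_nonneg.2 hhR') ?_ _
    push_cast
    linarith
  have h2 : ((Q : ℝ) * h) ^ (m + 1) ≤ a ^ (m + 1) :=
    pow_le_pow_left₀ (by positivity) hQh _
  have h3 := pow_sub_pow_le_mul (a := R - h) (R := R) (sub_nonneg.2 hhR') (by linarith) m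
  rw [show R - (R - h) = h by ring] at h3
  have h4 : (m + 1 : ℝ) * h * R ^ m ≤ e / 8 * R ^ (m + 1) := by
    have h6 := mul_le_mul_of_nonneg_left h5 (show (0 : ℝ) ≤ h * R ^ m by positivity)
    have h7 := mul_le_mul_of_nonneg_left hhR (show (0 : ℝ) ≤ e * R ^ m by positivity)
    rw [pow_succ R]
    linarith
  have : 0 ≤ e * R ^ (m + 1) := by positivity
  linarith

theorem packs_asymptotic_big {e : ℝ} (P : Params m e)
    {k : ℕ} {R : ℝ} {r : Fin k → ℝ} (hR : 0 < R) (hr : ∀ i, 0 < r i)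
    (hvol' : ∑ i, r i ^ (m + 1) ≤ (1 - e) * R ^ (m + 1))
    (hbigcard : (Finset.univ.filter fun i => P.delta * R < r i).card ≤ 2 ^ (m + 1))
    (hpair : ∀ i j, i ≠ j → r i + r j < R) {i₀ : Fin k} (hi₀ : R / 2 ≤ r i₀) (hlt₀ : r i₀ < R) :
    Packs (m + 1) R r := by
  classical
  obtain ⟨C, N, he0, he1, hC1, hN1', hC, hCN, hbN⟩ := P
  have hN1 : (1 : ℝ) ≤ N := by exact_mod_cast hN1'
  have hN0 : (0 : ℝ) < N := by linarith
  have hC0 : (0 : ℝ) < C := by exact_mod_cast hC1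
  have hRp : 0 < R ^ (m + 1) := pow_pos hR _
  have hδC := Params.mul_delta ⟨C, N, he0, he1, hC1, hN1', hC, hCN, hbN⟩ R
  have hsmall' := fun (h : ℝ) (hh : e * R / (4 * (m + 1) * N) ≤ h) (x : ℝ) =>
    Params.small ⟨C, N, he0, he1, hC1, hN1', hC, hCN, hbN⟩ (x := x) hR hh
  have hδ0 := Params.delta_pos ⟨C, N, he0, he1, hC1, hN1', hC, hCN, hbN⟩
  set δ := Params.delta ⟨C, N, he0, he1, hC1, hN1', hC, hCN, hbN⟩
  obtain ⟨ρ, hρ, hρc⟩ := Metric.continuousAt_iff.1
    ((continuous_pow (m + 1) : Continuous fun x : ℝ => x ^ (m + 1)).continuousAt (x := r i₀))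
    (e / 8 * R ^ (m + 1)) (by positivity)
  obtain ⟨a, ha, haR, haρ, hab⟩ := exists_bigger hpair i₀ hlt₀ hρ
  have hd := hρc (x := a) (by rw [Real.dist_eq, abs_of_pos (sub_pos.2 ha)]; linarith)
  rw [Real.dist_eq, abs_lt] at hd
  set b := R - a with hb
  have hb0 : 0 < b := sub_pos.2 haR
  set h := b / N with hhdef
  have hh : 0 < h := div_pos hb0 hN0
  have hNh : (N : ℝ) * h = b := mul_div_cancel₀ _ hN0.ne'
  set Q := ⌊a / h⌋₊ with hQdef
  have hQh : Q * h ≤ a :=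
    (le_div_iff₀ hh).1 (Nat.floor_le (div_nonneg (by linarith) hh.le))
  have hQh' : a < (Q + 1) * h := (div_lt_iff₀ hh).1 (Nat.lt_floor_add_one (a / h))
  have hNQ : N ≤ Q := by
    rw [hQdef, Nat.le_floor_iff (div_nonneg (by linarith) hh.le), le_div_iff₀ hh, hNh]
    linarith
  obtain ⟨V, η, fη, E, hV0, hV, hVR, hVd, hE, hEd, hVE, hcount⟩ :=
    shell_grid (m := m) (R := R) (a := a) hh (N := N) (Q := Q) (q := Q / N) (s := Q % N)
      (by rw [mul_comm]; exact (Nat.div_add_mod Q N).symm) hQh (by rw [hNh, hb]; ring)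
  have hq : 1 ≤ Q / N := (Nat.one_le_div_iff (by omega)).2 hNQ
  have hbig0 : δ * R < r i₀ := by
    have h1 : δ * R ≤ C * (δ * R) :=
      le_mul_of_one_le_left (by positivity) (by exact_mod_cast hC1)
    rw [hδC] at h1
    have h2 : e * R / (8 * (m + 1) * N) < R / 2 := by
      rw [div_lt_iff₀ (by positivity)]
      have h3 : (1 : ℝ) ≤ (m + 1) * N := one_le_mul_of_one_le_of_one_le (by simp) hN1
      linarith [mul_le_mul_of_nonneg_left h3 hR.le, mul_le_mul_of_nonneg_right he1 hR.le]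
    linarith
  have hcard1 : Fintype.card {j : {j // j ≠ i₀} // δ * R < r j} + 1 ≤ 2 ^ (m + 1) := by
    refine le_trans ?_ hbigcard
    rw [Fintype.card_congr (Equiv.subtypeSubtypeEquivSubtypeInter (fun j => j ≠ i₀)
      (fun j => δ * R < r j)), Fintype.card_subtype]
    refine Finset.card_lt_card (Finset.ssubset_iff_subset_ne.2 ⟨?_, ?_⟩)
    · exact fun j hj => by simp at hj ⊢; exact hj.2
    · intro heq
      have : i₀ ∈ Finset.univ.filter fun j => δ * R < r j := by simp [hbig0]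
      rw [← heq] at this
      simp at this
  have hcardS : Fintype.card {j : {j // j ≠ i₀} // δ * R < r j} ≤
      Fintype.card (Shell m (Q / N)) := by
    have h1 := shell_card_lower hq (m + 1)
    have h2 : ((Fintype.card {j : {j // j ≠ i₀} // δ * R < r j} : ℕ) : ℝ) + 1 ≤
        (2 : ℝ) ^ (m + 1) := by exact_mod_cast hcard1
    have h3 : (Fintype.card (Shell m (Q / N)) : ℝ) =
        (((Q / N : ℕ) : ℝ) + 1) ^ (m + 1) - ((Q / N : ℕ) : ℝ) ^ (m + 1) := by
      rw [card_shell, Nat.cast_sub (Nat.pow_le_pow_left (Nat.le_succ _) _)]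
      push_cast
      ring
    exact_mod_cast (show ((Fintype.card {j : {j // j ≠ i₀} // δ * R < r j} : ℕ) : ℝ) ≤
      (Fintype.card (Shell m (Q / N)) : ℝ) by linarith)
  have hhR : h * N ≤ R := by rw [mul_comm, hNh]; linarith
  have hlow : e * R / (4 * (m + 1) * N) ≤ h := by
    rw [hhdef, div_le_div_iff₀ (by positivity) hN0]
    have h2 : r i₀ ^ (m + 1) ≤ (1 - e) * R ^ (m + 1) :=
      le_trans (Finset.single_le_sum (f := fun i => r i ^ (m + 1))
        (fun j _ => (pow_pos (hr j) _).le) (Finset.mem_univ i₀)) hvol'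
    have h3 : e * R ≤ 4 * (m + 1) * b :=
      gap_lower hR he0 ((hr i₀).trans ha).le haR.le h2 hd.2
    have := mul_le_mul_of_nonneg_right h3 hN0.le
    linarith
  have hs := Finset.add_sum_erase Finset.univ (fun i => r i ^ (m + 1)) (Finset.mem_univ i₀)
  have hrest : ∑ j : {j // j ≠ i₀}, r j ^ (m + 1) =
      ∑ j ∈ Finset.univ.erase i₀, r j ^ (m + 1) :=
    (Finset.sum_subtype _ (fun x => by simp) fun j => r j ^ (m + 1)).symm
  have hT : ∑ j : {j // j ≠ i₀}, r j ^ (m + 1) + 5 / 8 * e * R ^ (m + 1) ≤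
      ((Fintype.card η : ℝ) + Fintype.card (Shell m (Q / N)) * (N : ℝ) ^ (m + 1)) *
        h ^ (m + 1) := by
    rw [← hcount]
    have h5 : 8 * (m + 1 : ℝ) ≤ e * N :=
      le_trans (mul_le_mul_of_nonneg_left (le_mul_of_one_le_left (by positivity)
        (one_le_pow₀ one_le_two)) (by norm_num)) hbN
    refine grid_mass (r₀ := r i₀) hh he0 (by rw [hNh, hb]; ring) hQh hQh' hhR
      ((le_mul_of_one_le_right hh.le hN1).trans hhR) h5 hd.2 ?_
    rw [hrest, add_comm]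
    exact hs.trans_le hvol'
  have hbud := budget (fun j : {j // j ≠ i₀} => δ * R < r j)
    (x := fun j : {j // j ≠ i₀} => r j) hR hh hN1' he0 hC hCN hbN hhR (fun j => hr j)
    (fun j _ => by
      have := hab j j.2
      have : h ≤ b := by rw [← hNh]; exact le_mul_of_one_le_left hh.le hN1
      linarith)
    (by omega)
    (by rw [hrest]; linarith [pow_pos (hr i₀) (m + 1), mul_pos he0 hRp]) hT
  obtain ⟨bw, W, hbw, hW, hWV, hWd⟩ := fill_mixed (x := fun j : {j // j ≠ i₀} => r j) hh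
    (V := fun w => V (some w)) hV (fun u => (hE u).1)
    (fun w w' hne => hVd _ _ fun he => hne (Option.some_injective _ he)) hEd
    (fun w u => hVE _ u) hC1 (fun j => hr j) (fun j => δ * R < r j)
    (fun j _ => by rw [hNh]; exact hab j j.2)
    (fun j hj => hsmall' h hlow (r j) hj) hcardS hbud
  refine Packs.of_rest ha hab _ hV0 (hVR none) W bw hbw hW (fun j => ?_) (fun j => ?_) hWd
  · rcases hWV j with ⟨w, hw⟩ | ⟨u, hu⟩
    · exact hw.trans (hVR _)
    · exact hu.trans (hE u).2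
  · rcases hWV j with ⟨w, hw⟩ | ⟨u, hu⟩
    · exact (hVd none (some w) (by simp)).mono_right hw
    · exact (hVE none u).mono_right hu

theorem packs_asymptotic_half {e : ℝ} (P : Params m e)
    {k : ℕ} {R : ℝ} {r : Fin k → ℝ} (hR : 0 < R) (hr : ∀ i, 0 < r i)
    (hvol' : ∑ i, r i ^ (m + 1) ≤ (1 - e) * R ^ (m + 1))
    (hbigcard : (Finset.univ.filter fun i => P.delta * R < r i).card ≤ 2 ^ (m + 1))
    (hhalf : ∀ i, r i < R / 2) : Packs (m + 1) R r := by
  classical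
  obtain ⟨C, N, he0, he1, hC1, hN1', hC, hCN, hbN⟩ := P
  have hN1 : (1 : ℝ) ≤ N := by exact_mod_cast hN1'
  have hN0 : (0 : ℝ) < N := by linarith
  have hC0 : (0 : ℝ) < C := by exact_mod_cast hC1
  have hRp : 0 < R ^ (m + 1) := pow_pos hR _
  have hδC := Params.mul_delta ⟨C, N, he0, he1, hC1, hN1', hC, hCN, hbN⟩ R
  have hsmall' := fun (h : ℝ) (hh : e * R / (4 * (m + 1) * N) ≤ h) (x : ℝ) =>
    Params.small ⟨C, N, he0, he1, hC1, hN1', hC, hCN, hbN⟩ (x := x) hR hh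
  have hδ0 := Params.delta_pos ⟨C, N, he0, he1, hC1, hN1', hC, hCN, hbN⟩
  set δ := Params.delta ⟨C, N, he0, he1, hC1, hN1', hC, hCN, hbN⟩
  obtain ⟨V, hV, hVd⟩ := half_slots m R
  set h := R / (2 * N) with hhdef
  have hh : 0 < h := by positivity
  have hNh : (N : ℝ) * h = R / 2 := by rw [hhdef]; field_simp
  have hhR : h * N ≤ R := by rw [mul_comm, hNh]; linarith
  have hlow : e * R / (4 * (m + 1) * N) ≤ h := by
    rw [hhdef, div_le_div_iff₀ (by positivity) (by positivity)]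
    have h3 : e ≤ 2 * (m + 1) := by linarith [show (0 : ℝ) ≤ m from Nat.cast_nonneg m]
    have := mul_le_mul_of_nonneg_left h3 (show (0 : ℝ) ≤ R * N by positivity)
    linarith
  have hT : ∑ j, r j ^ (m + 1) + 5 / 8 * e * R ^ (m + 1) ≤
      ((Fintype.card (Fin 0) : ℝ) + Fintype.card (Fin (m + 1) → Fin 2) * (N : ℝ) ^ (m + 1)) *
        h ^ (m + 1) := by
    simp only [Fintype.card_fin, Fintype.card_fun, Nat.cast_zero, zero_add, Nat.cast_pow,
      Nat.cast_ofNat]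
    rw [← mul_pow, ← mul_pow, show (2 : ℝ) * N * h = R by rw [mul_assoc, hNh]; ring]
    linarith [mul_pos he0 hRp]
  have hbud := budget (fun j => δ * R < r j) (x := r) hR hh hN1' he0 hC hCN hbN hhR hr
    (fun j _ => by
      have := hhalf j
      have : h ≤ R / 2 := by rw [← hNh]; exact le_mul_of_one_le_left hh.le hN1
      linarith)
    (by rw [Fintype.card_subtype]; exact hbigcard)
    (by linarith [mul_pos he0 hRp]) hT
  obtain ⟨bw, W, hbw, hW, hWV, hWd⟩ := fill_mixed (x := r) hh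
    (V := V) (E := fun u : Fin 0 => u.elim0) (fun w => by rw [hNh]; exact (hV w).1)
    (fun u => u.elim0) hVd (fun u => u.elim0) (fun _ u => u.elim0) hC1 hr
    (fun j => δ * R < r j) (fun j _ => by rw [hNh]; exact hhalf j)
    (fun j hj => hsmall' h hlow (r j) hj)
    (by rw [Fintype.card_subtype]; simpa using hbigcard) hbud
  refine packs_of_slots hbw W hW (fun j => ?_) hWd
  rcases hWV j with ⟨w, hw⟩ | ⟨u, -⟩
  · exact hw.trans (hV w).2
  · exact u.elim0

/-- Conjecture A's sufficiency up to an arbitrarily small volume loss, when at most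
`2 ^ (m + 1)` balls fail to be small. -/
theorem packs_asymptotic (ε : ℝ) (hε : 0 < ε) :
    ∃ δ : ℝ, 0 < δ ∧ ∀ (k : ℕ) (R : ℝ) (r : Fin k → ℝ), 0 < R → (∀ i, 0 < r i) →
      (∀ i j, i ≠ j → r i + r j < R) → (∑ i, r i ^ (m + 1) ≤ (1 - ε) * R ^ (m + 1)) →
      (Finset.univ.filter fun i => δ * R < r i).card ≤ 2 ^ (m + 1) → Packs (m + 1) R r := by
  classical
  set e := min ε (1 / 2) with he
  have he0 : 0 < e := lt_min hε (by norm_num)
  have he1 : e ≤ 1 / 2 := min_le_right _ _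
  obtain ⟨C, hC, hC1⟩ : ∃ C : ℕ, (((C : ℝ) + 1) / C) ^ (m + 1) ≤ 1 + e / 4 ∧ 1 ≤ C := by
    have h1 : Tendsto (fun C : ℕ => (1 + 1 / (C : ℝ)) ^ (m + 1)) atTop (𝓝 1) := by
      simpa using ((tendsto_one_div_atTop_nhds_zero_nat (𝕜 := ℝ)).const_add 1).pow (m + 1)
    obtain ⟨C, hC, hC1⟩ := ((h1.eventually_le_const (show (1 : ℝ) < 1 + e / 4 by linarith)).and
      (eventually_ge_atTop 1)).exists
    refine ⟨C, ?_, hC1⟩
    have : (C : ℝ) ≠ 0 := by exact_mod_cast (by omega : C ≠ 0)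
    rwa [add_div, div_self this]
  obtain ⟨N, hN⟩ := exists_nat_ge
    (max 1 ((8 * ((C : ℝ) + 1) + 8 * ((2 : ℝ) ^ (m + 1) * (m + 1))) / e))
  have hN1 : (1 : ℝ) ≤ N := (le_max_left _ _).trans hN
  have hN1' : 1 ≤ N := by exact_mod_cast hN1
  have hNe : 8 * ((C : ℝ) + 1) + 8 * ((2 : ℝ) ^ (m + 1) * (m + 1)) ≤ N * e :=
    (div_le_iff₀ he0).1 ((le_max_right _ _).trans hN)
  have hCN : 8 * ((C : ℝ) + 1) ≤ e * N := by
    have : (0 : ℝ) ≤ 8 * ((2 : ℝ) ^ (m + 1) * (m + 1)) := by positivity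
    linarith
  have hbN : 8 * ((2 : ℝ) ^ (m + 1) * (m + 1)) ≤ e * N := by
    have : (0 : ℝ) ≤ 8 * ((C : ℝ) + 1) := by positivity
    linarith
  have hC0 : (0 : ℝ) < C := by exact_mod_cast hC1
  have hN0 : (0 : ℝ) < N := by linarith
  let P : Params m e := ⟨C, N, he0, he1, hC1, hN1', hC, hCN, hbN⟩
  refine ⟨P.delta, P.delta_pos, fun k R r hR hr hpair hvol hbigcard => ?_⟩
  have hRp : 0 < R ^ (m + 1) := pow_pos hR _
  have hvol' : ∑ i, r i ^ (m + 1) ≤ (1 - e) * R ^ (m + 1) :=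
    hvol.trans (mul_le_mul_of_nonneg_right (by linarith [min_le_left ε (1 / 2)]) hRp.le)
  by_cases hhalf : ∃ i, R / 2 ≤ r i
  · obtain ⟨i₀, hi₀⟩ := hhalf
    refine packs_asymptotic_big P hR hr hvol' hbigcard hpair hi₀ ?_
    refine lt_of_pow_lt_pow_left₀ (m + 1) hR.le ?_
    have := Finset.single_le_sum (f := fun i => r i ^ (m + 1))
      (fun j _ => (pow_pos (hr j) _).le) (Finset.mem_univ i₀)
    linarith [mul_pos he0 hRp]
  · simp only [not_exists, not_le] at hhalf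
    exact packs_asymptotic_half P hR hr hvol' hbigcard hhalf

end Vale.Agent.P209
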